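import Vale.Agent.P221.H136.TopC
import Vale.Agent.P093.N.Nak3
import Vale.Agent.P093.N.HurMU
import Vale.Agent.P093.N1.EBase
import Vale.Agent.P251.M.KBasisMU

/-!
# P221 (helper136): no maps from `BP` to complete objects without even homotopy

`Ev D m X` : `X` is `2 m`-connective and `MU ⊗ X` is free over `MU` on classes of degrees `2 k`,
`k ≥ m`. Such an `X` has a map `t : X ⟶ X'`, `Ev D (m + 1) X'`, whose fibre is a sum of spheres
`S^{2 m}` (`ev_step`). A map from `X` to an object `K` with `π_{2 j} K = 0` for all `j` factors over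
the telescope of the `X^{(n)}`, which is zero (`ev_zero`).

* `par_mu` : `[MU, K] = 0`; `par_bp` : `[BP, K] = 0` if `K` is also `p`-complete;
* `par` : `[P, K] = 0` for `b : BPS p R P W`.
-/

open CategoryTheory MonoidalCategory MonObj Limits Pretriangulated

set_option linter.unusedSectionVars false

universe u

namespace Vale.Agent.P221.H136

open Vale.Agent.P251.M hiding IsCpt un
open Vale.Agent.P251 Vale.Agent.P251.S Vale.Agent.P251.T Vale.Agent.P251.F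
  Vale.Agent.P251.I EvenSpheres Vale.Agent.P257.H80 Vale.Agent.P221.H746 Vale.Agent.P093.Nak

variable {𝒯 : Type u} [Category.{0} 𝒯] [Preadditive 𝒯] [HasZeroObject 𝒯]
    [HasShift 𝒯 ℤ] [∀ n : ℤ, (shiftFunctor 𝒯 n).Additive] [Pretriangulated 𝒯] [IsTriangulated 𝒯]
    [MonoidalCategory 𝒯] [SymmetricCategory 𝒯] [TensorTriangulated 𝒯] [MonoidalClosed 𝒯]
    [HasCoproducts.{0} 𝒯] [HasProducts.{0} 𝒯] [StableCat 𝒯]

section

variable (D : MUData 𝒯)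

/-- `X` is `2 m`-connective and `MU ⊗ X` is free on classes of degrees `2 k`, `k ≥ m` -/
def Ev (m : ℤ) (X : 𝒯) : Prop :=
  Conn (2 * m) X ∧ ∃ (J : Type) (b : RBasis (stdEven 𝒯) D.R X J), ∀ j, m ≤ b.k j

variable {D}

/-- bottom classes are spherical -/
theorem lift_bottom {m : ℤ} {X : 𝒯} (hX : Conn (2 * m) X) {k : ℤ} (hk : k = m)
    (w : (stdEven 𝒯).S k ⟶ D.R ⊗ X) : ∃ y : (stdEven 𝒯).S k ⟶ X, y ≫ un D.R X = w := by
  subst hk
  obtain ⟨J, ρ, δ, hT, hJ⟩ := exists_cofibre_unit D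
  have h1 := (tensorRight X).map_distinguished _ hT
  have h2 : Conn (2 * k + 2) (J ⊗ X) :=
    Vale.Agent.P093.Nak.conn_bigCell_tensor Vale.Agent.P093.PLoc.isCpt_unit hX hJ _ rfl
  have h3 : w ≫ (ρ ▷ X) = 0 := by
    rw [← cancel_epi (stdSph k).inv, comp_zero]
    exact h2 (2 * k) (by omega) _
  obtain ⟨y, hy⟩ : ∃ y : (stdEven 𝒯).S k ⟶ 𝟙_ 𝒯 ⊗ X, w = y ≫ (η[D.R] ▷ X) :=
    Triangle.coyoneda_exact₂ _ h1 w h3
  refine ⟨y ≫ (λ_ X).hom, ?_⟩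
  unfold Vale.Agent.P093.Nak.un
  rw [Category.assoc, Iso.hom_inv_id_assoc, ← hy]

/-- killing the bottom classes -/
theorem ev_step {m : ℤ} {X : 𝒯} (h : Ev D m X) {K : 𝒯}
    (hK : ∀ (j : ℤ) (f : (𝟙_ 𝒯)⟦2 * j⟧ ⟶ K), f = 0) (f : X ⟶ K) :
    ∃ (X' : 𝒯) (t : X ⟶ X') (f' : X' ⟶ K), Ev D (m + 1) X' ∧ t ≫ f' = f := by
  obtain ⟨hX, J, b, hb⟩ := h
  let J₀ := {j : J // b.k j = m}
  let J₁ := {j : J // ¬ b.k j = m}
  have hy : ∀ j : J₀, ∃ y : (stdEven 𝒯).S (b.k j.1) ⟶ X, y ≫ un D.R X = b.w j.1 :=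
    fun j => lift_bottom hX j.2 _
  choose y hy using hy
  let k₀ : J₀ → ℤ := fun j => b.k j.1
  let k₁ : J₁ → ℤ := fun j => b.k j.1
  let g : (∐ fun j : J₀ => (stdEven 𝒯).S (k₀ j)) ⟶ X := Sigma.desc y
  let b₀ : RBasis (stdEven 𝒯) D.R (∐ fun j : J₀ => (stdEven 𝒯).S (k₀ j)) J₀ := RBasis.taut J₀ k₀
  let w₁ : ∀ j : J₁, (stdEven 𝒯).S (k₁ j) ⟶ D.R ⊗ X := fun j => b.w j.1
  have hw₀ : ∀ j : J₀, b₀.w j ≫ D.R ◁ g = b.w j.1 := by
    intro j
    change (Sigma.ι (fun j : J₀ => (stdEven 𝒯).S (k₀ j)) j ≫ un D.R _) ≫ D.R ◁ g = _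
    rw [Category.assoc, ← un_naturality, ← Category.assoc, Sigma.ι_desc, hy]
  have hiso : IsIso (Sigma.desc fun x => lin (ModStr.free D.R X) (famW b₀ g k₁ w₁ x)) := by
    classical
    let σ : J₀ ⊕ J₁ ≃ J := Equiv.sumCompl fun j => b.k j = m
    let W : ∀ x : J₀ ⊕ J₁, (D.R ⊗ (stdEven 𝒯).S (b.k (σ x))) ≅
        (D.R ⊗ (stdEven 𝒯).S (famK b₀ k₁ x))
      | Sum.inl _ => Iso.refl _
      | Sum.inr _ => Iso.refl _
    have h1 : (Sigma.desc fun x => lin (ModStr.free D.R X) (famW b₀ g k₁ w₁ x)) =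
        (Limits.Sigma.whiskerEquiv (f := fun x => D.R ⊗ (stdEven 𝒯).S (famK b₀ k₁ x))
          (g := fun j => D.R ⊗ (stdEven 𝒯).S (b.k j)) σ W).hom ≫
          Sigma.desc (fun j => lin (ModStr.free D.R X) (b.w j)) := by
      refine Sigma.hom_ext _ _ fun x => ?_
      rcases x with j | j
      · have h2 : lin (ModStr.free D.R X) (famW b₀ g k₁ w₁ (Sum.inl j)) =
          lin (ModStr.free D.R X) (b.w j.1) := congrArg _ (hw₀ j)
        simp only [Sigma.ι_desc, Sigma.whiskerEquiv_hom, Sigma.ι_comp_map'_assoc]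
        rw [h2]
        exact (Category.id_comp _).symm
      · simp only [Sigma.ι_desc, Sigma.whiskerEquiv_hom, Sigma.ι_comp_map'_assoc]
        exact (Category.id_comp _).symm
    have := b.isIso
    rw [h1]
    infer_instance
  obtain ⟨X', t, δ, hT⟩ := distinguished_cocone_triangle g
  have h2 := isIso_cofibre b₀ g k₁ w₁ hiso hT
  let b' : RBasis (stdEven 𝒯) D.R X' J₁ := ⟨k₁, fun i => w₁ i ≫ D.R ◁ t, h2⟩
  have hS : Conn (2 * m) (∐ fun j : J₀ => (stdEven 𝒯).S (k₀ j)) := by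
    refine conn_coprod Vale.Agent.P093.PLoc.isCpt_unit _ fun j => ?_
    have h3 : Conn (2 * b.k j.1) ((𝟙_ 𝒯)⟦2 * b.k j.1⟧) := D.conn_unit.shift _ _ (by ring)
    exact (h3.mono (by rw [j.2])).of_iso (stdSph (b.k j.1)).symm
  have hX' : Conn (2 * m) X' := Conn.ext₃ _ hT hX (hS.mono (by omega))
  have hb' : ∀ i : J₁, m + 1 ≤ b'.k i := by
    intro i
    have h4 : m ≤ b.k i.1 := hb i.1
    have h5 : b.k i.1 ≠ m := i.2
    change m + 1 ≤ b.k i.1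
    omega
  have hg : g ≫ f = 0 := by
    refine Sigma.hom_ext _ _ fun j => ?_
    rw [comp_zero, ← cancel_epi (stdSph (k₀ j)).inv, comp_zero]
    exact hK _ _
  obtain ⟨f', hf'⟩ : ∃ f' : X' ⟶ K, f = t ≫ f' := Triangle.yoneda_exact₂ _ hT f hg
  exact ⟨X', t, f', ⟨conn_of_rbasis_MU D hX' b' hb', J₁, b', hb'⟩, hf'.symm⟩

/-- maps to objects without even homotopy -/
theorem ev_zero {m : ℤ} {X : 𝒯} (h : Ev D m X) {K : 𝒯}
    (hK : ∀ (j : ℤ) (f : (𝟙_ 𝒯)⟦2 * j⟧ ⟶ K), f = 0) (f : X ⟶ K) : f = 0 := by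
  choose! nX nt nf hn using fun (m : ℤ) (X : 𝒯) (h : Ev D m X) (f : X ⟶ K) => ev_step h hK f
  let St : ℕ → Type u := fun n => {x : (X : 𝒯) × (X ⟶ K) // Ev D (m + n) x.1}
  let nxt : ∀ n, St n → St (n + 1) := fun n x =>
    ⟨⟨nX (m + n) x.1.1 x.1.2, nf (m + n) x.1.1 x.1.2⟩, by
      have h1 := (hn (m + n) x.1.1 x.2 x.1.2).1
      rw [add_assoc] at h1
      push_cast
      exact h1⟩
  let s : ∀ n, St n := fun n => Nat.rec ⟨⟨X, f⟩, by simpa using h⟩ nxt n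
  let T : ∀ n, (s n).1.1 ⟶ (s (n + 1)).1.1 := fun n => nt (m + n) (s n).1.1 (s n).1.2
  have hT : ∀ n, T n ≫ (s (n + 1)).1.2 = (s n).1.2 := fun n =>
    (hn (m + n) (s n).1.1 (s n).2 (s n).1.2).2
  let F : ℕ ⥤ 𝒯 := Functor.ofSequence T
  obtain ⟨L, il, hL⟩ := M.exists_isTel F
  obtain ⟨g, hg⟩ := hL.exists_lift (fun n => (s n).1.2) fun n => by
    rw [Functor.ofSequence_map_homOfLE_succ]
    exact hT n
  have hz : IsZero L := by
    refine StableCat.generator L fun k w => ?_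
    obtain ⟨n, w', rfl⟩ := hL.exists_factor' (isCpt_sph k) w
    obtain ⟨N, hN, hkN⟩ : ∃ N : ℕ, n ≤ N ∧ k < 2 * (m + N) :=
      ⟨n + (k - 2 * m).toNat + 1, by omega, by push_cast; omega⟩
    rw [← hL.comp hN, ← Category.assoc]
    have h1 : Conn (2 * (m + N)) (F.obj N) := (s N).2.1
    have h2 : w' ≫ F.map (homOfLE hN) = 0 := h1 k hkN _
    rw [h2, zero_comp]
  have h0 := hg 0
  rw [hz.eq_of_src g 0, comp_zero] at h0
  exact h0.symm

end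

section

variable {F : SpaceFunctor 𝒯} {e : F.S.obj CCF ≅ (stdEven 𝒯).L} {D : MUData 𝒯}
  {p : ℕ} [hp : Fact p.Prime]

theorem ev_mu (hD : MUUniv e D) : Ev D 0 D.R := by
  obtain ⟨g, hk, -⟩ := D.exists_basis_of (𝟙 D.R) hD
  refine ⟨conn_R D, _, Vale.Agent.P093.N1.ofGBasis g, fun j => ?_⟩
  have h1 : (Vale.Agent.P093.N1.ofGBasis g).k j = Cob.degU j := hk j
  rw [h1, Cob.degU, Finsupp.sum]
  positivity

/-- `[MU, K] = 0` for `K` without even homotopy -/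
theorem par_mu (hD : MUUniv e D) {K : 𝒯} (hK : ∀ (j : ℤ) (f : (𝟙_ 𝒯)⟦2 * j⟧ ⟶ K), f = 0)
    (f : D.R ⟶ K) : f = 0 := ev_zero (ev_mu hD) hK f

variable {R : 𝒯} [MonObj R] [IsCommMonObj R] {b₀ : D.R ⟶ R} [IsMonHom b₀]

/-- `[BP, K] = 0` for `p`-complete `K` without even homotopy -/
theorem par_bp (hD : MUUniv e D) (hb : IsBPMon p b₀) {K : 𝒯} (hc : H395.PComplete p K)
    (hK : ∀ (j : ℤ) (f : (𝟙_ 𝒯)⟦2 * j⟧ ⟶ K), f = 0) (f : R ⟶ K) : f = 0 := by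
  obtain ⟨Rp, _, _, l, _, hl, s, _, r, _, -, hsr, -⟩ := exists_retract hD hb
  have h1 : r ≫ f = 0 := (hl.bij_unit (locO_of_pComplete hp.out hc)).1 (by
    change l ≫ r ≫ f = l ≫ 0
    rw [comp_zero]
    exact par_mu hD hK _)
  rw [← Category.id_comp f, ← hsr, Category.assoc, h1, comp_zero]

/-- **(PAR)** -/
theorem par (hD : MUUniv e D) (hb : IsBPMon p b₀) {P W : 𝒯} (b : T.BPS p R P W) (K : 𝒯)
    (hc : H395.PComplete p K) (hK : ∀ (j : ℤ) (f : (𝟙_ 𝒯)⟦2 * j⟧ ⟶ K), f = 0) (f : P ⟶ K) :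
    f = 0 := (b.c_bij0' K hc).1 (by
  change b.c ≫ f = b.c ≫ 0
  rw [comp_zero]
  exact par_bp hD hb hc hK _)

end

end Vale.Agent.P221.H136
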