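import Vale.Agent.P221.T.SrcDef
import Vale.Agent.P221.H746.Kap

/-!
# P221 (helper136): the sphere and `BP` in the top degree

* `top_bp` : `R` a Brown-Peterson monoid, `Y` `p`-complete with `π_j Y = 0` for `j > m`; for `k ≥ m`
  restriction along the unit is a bijection `(R⟦k⟧ ⟶ Y) → (𝟙⟦k⟧ ⟶ Y)`;
* `top_bps` : the same for the completion `P` of `b : BPS p R P W`.
-/

open CategoryTheory MonoidalCategory MonObj Limits Pretriangulated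

set_option linter.unusedSectionVars false

universe u

namespace Vale.Agent.P221.H136

open Vale.Agent.P251 Vale.Agent.P251.S Vale.Agent.P251.T Vale.Agent.P251.M Vale.Agent.P251.F
  Vale.Agent.P251.I EvenSpheres Vale.Agent.P257.H80 Vale.Agent.P221.H746

variable {𝒯 : Type u} [Category.{0} 𝒯] [Preadditive 𝒯] [HasZeroObject 𝒯]
    [HasShift 𝒯 ℤ] [∀ n : ℤ, (shiftFunctor 𝒯 n).Additive] [Pretriangulated 𝒯] [IsTriangulated 𝒯]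
    [MonoidalCategory 𝒯] [SymmetricCategory 𝒯] [TensorTriangulated 𝒯] [MonoidalClosed 𝒯]
    [HasCoproducts.{0} 𝒯] [HasProducts.{0} 𝒯] [StableCat 𝒯]

/-- `p`-complete objects are `p`-local -/
theorem locO_of_pComplete {p : ℕ} (hp : p.Prime) {Z : 𝒯} (hZ : H395.PComplete p Z) : LocO p Z := by
  intro m hm
  obtain ⟨Q, g, h, hT⟩ := distinguished_cocone_triangle (m • 𝟙 Z)
  have hQ : H395.PComplete p Q := H395.PComplete.ext₃ _ hT hZ hZ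
  have h1 : g ≫ (m • 𝟙 Q) = 0 := by
    have h2 : (m • 𝟙 Z) ≫ g = 0 := comp_distTriang_mor_zero₁₂ _ hT
    rw [Preadditive.comp_zsmul, Category.comp_id]
    rwa [Preadditive.zsmul_comp, Category.id_comp] at h2
  obtain ⟨k, hk⟩ : ∃ k : Z⟦(1 : ℤ)⟧ ⟶ Q, m • 𝟙 Q = h ≫ k := Triangle.yoneda_exact₃ _ hT _ h1
  have h3 : m • h = 0 := by
    have h4 : h ≫ (m • 𝟙 Z)⟦(1 : ℤ)⟧' = 0 := comp_distTriang_mor_zero₃₁ _ hT
    rwa [Functor.map_zsmul, CategoryTheory.Functor.map_id, Preadditive.comp_zsmul,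
      Category.comp_id] at h4
  have h5 : m • m • 𝟙 Q = 0 := by rw [hk, ← Preadditive.zsmul_comp, h3, zero_comp]
  obtain ⟨s, t, hst⟩ := exists_bezout hp (not_dvd_mul hp hm hm)
  have h6 : (t * (p : ℤ)) • 𝟙 Q = 𝟙 Q := by
    have h7 : 𝟙 Q = (s * (m * m) + t * (p : ℤ)) • 𝟙 Q := by rw [hst, one_smul]
    rw [add_smul, mul_smul s, mul_smul m m, h5, smul_zero, zero_add] at h7
    exact h7.symm
  have h8 : IsIso ((p : ℤ) • 𝟙 Q) := by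
    refine ⟨t • 𝟙 Q, ?_, ?_⟩
    · rw [Preadditive.zsmul_comp, Category.id_comp, smul_smul, mul_comm, h6]
    · rw [Preadditive.zsmul_comp, Category.id_comp, smul_smul, h6]
  have h9 : IsZero Q := (IsZero.iff_id_eq_zero Q).2 (hQ Q h8 (𝟙 Q))
  exact (Triangle.isZero₃_iff_isIso₁ _ hT).1 h9

/-- no maps from objects with cells in dimensions `> m` to objects without homotopy in
dimensions `> m` -/
theorem hom_bigCell {j m : ℤ} (hj : m < j) {X Y : 𝒯} (hX : BigCell 𝒯 j X)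
    (hY : ∀ k, m < k → ∀ x : (𝟙_ 𝒯)⟦k⟧ ⟶ Y, x = 0) : ∀ f : X ⟶ Y, f = 0 := by
  induction hX with
  | sphere k hk => exact hY k (by omega)
  | coprod X _ ih =>
    intro f
    exact Sigma.hom_ext _ _ fun i => by rw [ih i (_ ≫ f), comp_zero]
  | ext Δ hΔ _ _ ih₁ ih₃ =>
    intro f
    obtain ⟨g, hg⟩ := Triangle.yoneda_exact₂ Δ hΔ f (ih₁ _)
    rw [hg, ih₃ g, comp_zero]

/-- shifting -/
theorem bij_shift {X X' : 𝒯} (f : X ⟶ X') (k : ℤ) (Y : 𝒯)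
    (h : Function.Bijective fun g : X' ⟶ Y⟦(-k : ℤ)⟧ => f ≫ g) :
    Function.Bijective fun g : X'⟦k⟧ ⟶ Y => f⟦k⟧' ≫ g := by
  let e : (Y⟦(-k : ℤ)⟧)⟦k⟧ ≅ Y := (shiftFunctorCompIsoId 𝒯 (-k) k (by omega)).app Y
  constructor
  · intro g g' hg
    change f⟦k⟧' ≫ g = f⟦k⟧' ≫ g' at hg
    obtain ⟨u, hu⟩ := (shiftFunctor 𝒯 k).map_surjective (g ≫ e.inv)
    obtain ⟨u', hu'⟩ := (shiftFunctor 𝒯 k).map_surjective (g' ≫ e.inv)
    have h1 : f ≫ u = f ≫ u' := (shiftFunctor 𝒯 k).map_injective (by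
      rw [Functor.map_comp, Functor.map_comp, hu, hu', reassoc_of% hg])
    have h2 : u = u' := h.1 h1
    rw [← cancel_mono e.inv, ← hu, ← hu', h2]
  · intro y
    obtain ⟨v, hv⟩ := (shiftFunctor 𝒯 k).map_surjective (y ≫ e.inv)
    obtain ⟨w, hw⟩ := h.2 v
    change f ≫ w = v at hw
    refine ⟨w⟦k⟧' ≫ e.hom, ?_⟩
    change f⟦k⟧' ≫ w⟦k⟧' ≫ e.hom = y
    rw [← Functor.map_comp_assoc, hw, hv, Category.assoc, Iso.inv_hom_id, Category.comp_id]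

theorem pi_shift {Y : 𝒯} {m k : ℤ} (hk : m ≤ k) (hY : ∀ j, m < j → ∀ x : (𝟙_ 𝒯)⟦j⟧ ⟶ Y, x = 0) :
    ∀ j, (0 : ℤ) < j → ∀ x : (𝟙_ 𝒯)⟦j⟧ ⟶ Y⟦(-k : ℤ)⟧, x = 0 := by
  intro j hj x
  let e : (Y⟦(-k : ℤ)⟧)⟦k⟧ ≅ Y := (shiftFunctorCompIsoId 𝒯 (-k) k (by omega)).app Y
  apply (shiftFunctor 𝒯 k).map_injective
  rw [Functor.map_zero, ← cancel_mono e.hom, zero_comp,
    ← cancel_epi ((shiftFunctorAdd' 𝒯 j k (j + k) rfl).app (𝟙_ 𝒯)).hom, comp_zero]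
  exact hY (j + k) (by omega) _

section

variable {F : SpaceFunctor 𝒯} {e : F.S.obj CCF ≅ (stdEven 𝒯).L} {D : MUData 𝒯}
  {p : ℕ} [hp : Fact p.Prime]

/-- the unit of `MU` in the top degree -/
theorem top_mu (D : MUData 𝒯) {Y : 𝒯} (hY : ∀ j, (0 : ℤ) < j → ∀ x : (𝟙_ 𝒯)⟦j⟧ ⟶ Y, x = 0) :
    Function.Bijective fun a : D.R ⟶ Y => η[D.R] ≫ a := by
  obtain ⟨J, ρ, δ, hT⟩ := distinguished_cocone_triangle (η[D.R] : 𝟙_ 𝒯 ⟶ D.R)
  have hJ := D.conn J ρ δ hT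
  constructor
  · intro a a' haa
    change η[D.R] ≫ a = η[D.R] ≫ a' at haa
    have h1 : η[D.R] ≫ (a - a') = 0 := by rw [Preadditive.comp_sub, haa, sub_self]
    obtain ⟨g, hg⟩ : ∃ g : J ⟶ Y, a - a' = ρ ≫ g := Triangle.yoneda_exact₂ _ hT _ h1
    rw [hom_bigCell (by norm_num : (0 : ℤ) < 2) hJ hY g, comp_zero] at hg
    exact sub_eq_zero.1 hg
  · intro y
    have hJ' : BigCell 𝒯 1 (J⟦(-1 : ℤ)⟧) := hJ.shift (-1) 1 (by norm_num)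
    have h0 : ∀ t : J⟦(-1 : ℤ)⟧ ⟶ Y, t = 0 := hom_bigCell (by norm_num) hJ' hY
    obtain ⟨g, hg⟩ : ∃ g : D.R ⟶ Y, y = η[D.R] ≫ g :=
      Triangle.yoneda_exact₂ _ (inv_rot_of_distTriang _ hT) y (h0 _)
    exact ⟨g, hg.symm⟩

variable {R : 𝒯} [MonObj R] [IsCommMonObj R] {b₀ : D.R ⟶ R} [IsMonHom b₀]

/-- the unit of `BP` in the top degree -/
theorem top_bp0 (hD : MUUniv e D) (hb : IsBPMon p b₀) {Y : 𝒯} (hc : H395.PComplete p Y)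
    (hY : ∀ j, (0 : ℤ) < j → ∀ x : (𝟙_ 𝒯)⟦j⟧ ⟶ Y, x = 0) :
    Function.Bijective fun a : R ⟶ Y => η[R] ≫ a := by
  obtain ⟨Rp, _, _, l, _, hl, f, _, g, _, -, hfg, -⟩ := exists_retract hD hb
  have h1 : Function.Bijective fun a : Rp ⟶ Y => l ≫ a := hl.bij_unit (locO_of_pComplete hp.out hc)
  have h2 := top_mu D hY
  have h3 : Function.Bijective fun a : Rp ⟶ Y => η[Rp] ≫ a := by
    have h4 : (fun a : Rp ⟶ Y => η[Rp] ≫ a) =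
        (fun a : D.R ⟶ Y => η[D.R] ≫ a) ∘ (fun a : Rp ⟶ Y => l ≫ a) := by
      funext a
      change η[Rp] ≫ a = η[D.R] ≫ l ≫ a
      rw [← Category.assoc, IsMonHom.one_hom l]
    rw [h4]
    exact h2.comp h1
  constructor
  · intro a a' haa
    change η[R] ≫ a = η[R] ≫ a' at haa
    have h5 : g ≫ a = g ≫ a' := h3.1 (by
      change η[Rp] ≫ g ≫ a = η[Rp] ≫ g ≫ a'
      rw [← Category.assoc, ← Category.assoc, IsMonHom.one_hom g, haa])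
    rw [← Category.id_comp a, ← Category.id_comp a', ← hfg, Category.assoc, Category.assoc, h5]
  · intro y
    obtain ⟨a, ha⟩ := h3.2 y
    refine ⟨f ≫ a, ?_⟩
    change η[R] ≫ f ≫ a = y
    rw [← Category.assoc, IsMonHom.one_hom f]
    exact ha

/-- **(TOP)** for the Brown-Peterson monoid -/
theorem top_bp (hD : MUUniv e D) (hb : IsBPMon p b₀) (Y : 𝒯) (m : ℤ) (hc : H395.PComplete p Y)
    (hY : ∀ k, m < k → ∀ x : (𝟙_ 𝒯)⟦k⟧ ⟶ Y, x = 0) (k : ℤ) (hk : m ≤ k) :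
    Function.Bijective fun a : R⟦k⟧ ⟶ Y => (η[R])⟦k⟧' ≫ a :=
  bij_shift _ _ _ (top_bp0 hD hb (hc.shift (-k)) (pi_shift hk hY))

/-- **(TOP)** for its completion -/
theorem top_bps (hD : MUUniv e D) (hb : IsBPMon p b₀) {P W : 𝒯} (b : T.BPS p R P W)
    (Y : 𝒯) (m : ℤ) (hc : H395.PComplete p Y)
    (hY : ∀ k, m < k → ∀ x : (𝟙_ 𝒯)⟦k⟧ ⟶ Y, x = 0) (k : ℤ) (hk : m ≤ k) :
    Function.Bijective fun a : P⟦k⟧ ⟶ Y => (η[R] ≫ b.c)⟦k⟧' ≫ a := by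
  have h1 := top_bp hD hb Y m hc hY k hk
  have h2 := b.c_bij' Y hc k
  have h4 : (fun a : P⟦k⟧ ⟶ Y => (η[R] ≫ b.c)⟦k⟧' ≫ a) =
      (fun a : R⟦k⟧ ⟶ Y => (η[R])⟦k⟧' ≫ a) ∘ (fun a : P⟦k⟧ ⟶ Y => b.c⟦k⟧' ≫ a) := by
    funext a
    change (η[R] ≫ b.c)⟦k⟧' ≫ a = (η[R])⟦k⟧' ≫ b.c⟦k⟧' ≫ a
    rw [Functor.map_comp, Category.assoc]
  rw [h4]
  exact h1.comp h2

end

end Vale.Agent.P221.H136
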