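import Vale.Agent.P221.T.Coor
import Mathlib.Algebra.MvPolynomial.Rename
import Mathlib.Algebra.Order.Antidiag.Finsupp
import Mathlib.Tactic

/-!
# P221, part T: leading terms (`SpecLead`, helper136)
-/

open MvPolynomial Vale.Agent.P221.T

namespace Vale.Agent.P221.H136

variable {p : ℕ} [hp : Fact p.Prime] {n : ℕ}

theorem p_ne : (p : ℤ_[p]) ≠ 0 := by exact_mod_cast hp.out.ne_zero

open scoped Classical in
/-- division by `p ^ a` -/
noncomputable def dv (a : ℕ) (c : ℤ_[p]) : ℤ_[p] :=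
  if h : (p : ℤ_[p]) ^ a ∣ c then h.choose else 0

theorem dv_mul (a : ℕ) (c : ℤ_[p]) : dv a ((p : ℤ_[p]) ^ a * c) = c := by
  unfold dv
  have h : (p : ℤ_[p]) ^ a ∣ (p : ℤ_[p]) ^ a * c := dvd_mul_right _ _
  rw [dif_pos h]
  exact (mul_left_cancel₀ (pow_ne_zero a p_ne) h.choose_spec).symm

theorem dv_zero (a : ℕ) : dv a (0 : ℤ_[p]) = 0 := by
  have := dv_mul a (0 : ℤ_[p])
  rwa [mul_zero] at this

theorem dv_add {a : ℕ} {c c' : ℤ_[p]} (h : (p : ℤ_[p]) ^ a ∣ c) (h' : (p : ℤ_[p]) ^ a ∣ c') :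
    dv a (c + c') = dv a c + dv a c' := by
  obtain ⟨d, rfl⟩ := h
  obtain ⟨d', rfl⟩ := h'
  rw [← mul_add, dv_mul, dv_mul, dv_mul]

theorem toZMod_p_mul (c : ℤ_[p]) : PadicInt.toZMod ((p : ℤ_[p]) * c) = 0 := by
  rw [map_mul, map_natCast, ZMod.natCast_self, zero_mul]

theorem dvd_of_toZMod {c : ℤ_[p]} (h : PadicInt.toZMod c = 0) : (p : ℤ_[p]) ∣ c := by
  have h1 : c ∈ RingHom.ker (PadicInt.toZMod : ℤ_[p] →+* ZMod p) := h
  rw [PadicInt.ker_toZMod, PadicInt.maximalIdeal_eq_span_p, Ideal.mem_span_singleton] at h1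
  exact h1

/-- coefficientwise description of `II p ^ T` -/
def Dv (T : ℕ) (f : KK p) : Prop := ∀ m : ℕ →₀ ℕ, (p : ℤ_[p]) ^ (T - m.degree) ∣ coeff m f

theorem Dv.zero (T : ℕ) : Dv T (0 : KK p) := fun m => by rw [coeff_zero]; exact dvd_zero _

theorem Dv.add {T : ℕ} {f g : KK p} (hf : Dv T f) (hg : Dv T g) : Dv T (f + g) :=
  fun m => by rw [coeff_add]; exact dvd_add (hf m) (hg m)

theorem Dv.mul {T S : ℕ} {f g : KK p} (hf : Dv T f) (hg : Dv S g) : Dv (T + S) (f * g) := by
  intro m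
  rw [coeff_mul]
  refine Finset.dvd_sum fun x hx => ?_
  rw [Finset.mem_antidiagonal] at hx
  refine dvd_trans ?_ (mul_dvd_mul (hf x.1) (hg x.2))
  rw [← pow_add]
  refine pow_dvd_pow _ ?_
  rw [← hx, map_add]
  omega

theorem Dv.of_le {T S : ℕ} (h : S ≤ T) {f : KK p} (hf : Dv T f) : Dv S f :=
  fun m => dvd_trans (pow_dvd_pow _ (Nat.sub_le_sub_right h _)) (hf m)

theorem Dv.mono (T : ℕ) (m : ℕ →₀ ℕ) (c : ℤ_[p]) :
    Dv T (monomial m ((p : ℤ_[p]) ^ (T - m.degree) * c) : KK p) := by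
  classical
  intro m'
  rw [coeff_monomial]
  by_cases h : m = m'
  · rw [if_pos h, h]
    exact dvd_mul_right _ _
  · rw [if_neg h]
    exact dvd_zero _

theorem II_le : ∀ f ∈ II p, Dv 1 f := by
  classical
  intro f hf
  unfold II at hf
  refine Submodule.span_induction ?_ ?_ ?_ ?_ hf
  · rintro x (rfl | ⟨i, rfl⟩)
    · intro m
      rw [show ((p : ℕ) : KK p) = C ((p : ℕ) : ℤ_[p]) by rw [map_natCast], coeff_C]
      by_cases h : 0 = m
      · rw [if_pos h, ← h, map_zero, Nat.sub_zero, pow_one]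
      · rw [if_neg h]
        exact dvd_zero _
    · intro m
      rw [coeff_X]
      by_cases h : Finsupp.single i 1 = m
      · rw [if_pos h, ← h, Finsupp.degree_single, Nat.sub_self, pow_zero]
      · rw [if_neg h]
        exact dvd_zero _
  · exact Dv.zero 1
  · intro x y _ _ hx hy
    exact hx.add hy
  · intro c x _ hx
    have h0 : Dv 0 c := fun m => by rw [Nat.zero_sub, pow_zero]; exact one_dvd _
    have := h0.mul hx
    rwa [Nat.zero_add] at this

theorem mono_mem (m : ℕ →₀ ℕ) : (monomial m 1 : KK p) ∈ II p ^ m.degree := by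
  induction m using Finsupp.induction_linear with
  | zero => rw [map_zero, pow_zero, Ideal.one_eq_top]; trivial
  | add m m' h h' =>
    rw [map_add, pow_add, ← mul_one (1 : ℤ_[p]), ← monomial_mul]
    exact Ideal.mul_mem_mul h h'
  | single i k =>
    rw [Finsupp.degree_single, ← X_pow_eq_monomial]
    exact Ideal.pow_mem_pow (Ideal.subset_span (Set.mem_insert_of_mem _ (Set.mem_range_self i))) k

theorem mem_II_pow {T : ℕ} {f : KK p} : f ∈ II p ^ T ↔ Dv T f := by
  constructor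
  · intro hf
    induction T generalizing f with
    | zero => exact fun m => by rw [Nat.zero_sub, pow_zero]; exact one_dvd _
    | succ T ih =>
      rw [pow_succ] at hf
      refine Submodule.mul_induction_on hf (fun x hx y hy => (ih hx).mul (II_le y hy))
        (fun x y hx hy => hx.add hy)
  · intro hf
    rw [f.as_sum]
    refine sum_mem fun m _ => ?_
    obtain ⟨c, hc⟩ := hf m
    rw [hc]
    have h1 : (monomial m ((p : ℤ_[p]) ^ (T - m.degree) * c) : KK p)
        = C c * ((p : KK p) ^ (T - m.degree) * monomial m 1) := by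
      rw [show ((p : ℕ) : KK p) = C ((p : ℕ) : ℤ_[p]) by rw [map_natCast], ← C_pow,
        C_mul_monomial, C_mul_monomial, mul_one, mul_comm]
    rw [h1]
    refine Ideal.mul_mem_left _ _ ?_
    refine Ideal.pow_le_pow_right (show T ≤ (T - m.degree) + m.degree by omega) ?_
    rw [pow_add]
    exact Ideal.mul_mem_mul (Ideal.pow_mem_pow (Ideal.subset_span (Set.mem_insert _ _)) _)
      (mono_mem m)

theorem Dv.induction {T : ℕ} {P : KK p → Prop} (h0 : P 0)
    (hm : ∀ (m : ℕ →₀ ℕ) (c : ℤ_[p]), P (monomial m ((p : ℤ_[p]) ^ (T - m.degree) * c)))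
    (ha : ∀ f g, Dv T f → Dv T g → P f → P g → P (f + g)) {f : KK p} (hf : Dv T f) : P f := by
  have key : ∀ s : Finset (ℕ →₀ ℕ), Dv T (∑ m ∈ s, monomial m (coeff m f)) ∧
      P (∑ m ∈ s, monomial m (coeff m f)) := by
    intro s
    refine Finset.sum_induction _ (fun g => Dv T g ∧ P g) ?_ ⟨Dv.zero T, h0⟩ ?_
    · rintro g g' ⟨h1, h2⟩ ⟨h3, h4⟩
      exact ⟨h1.add h3, ha _ _ h1 h3 h2 h4⟩
    · intro m _
      obtain ⟨c, hc⟩ := hf m
      rw [hc]
      exact ⟨Dv.mono T m c, hm m c⟩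
  rw [f.as_sum]
  exact (key _).2

/-! ### exponents -/

/-- the exponents of `v_1, …, v_n` -/
noncomputable def tf (μ : Fin (n + 1) →₀ ℕ) : Fin n →₀ ℕ :=
  Finsupp.equivFunOnFinite.symm fun i => μ i.succ

theorem tf_apply (μ : Fin (n + 1) →₀ ℕ) (i : Fin n) : tf μ i = μ i.succ := rfl

/-- the same, as exponents of `KK p` -/
noncomputable def tl (μ : Fin (n + 1) →₀ ℕ) : ℕ →₀ ℕ :=
  (tf μ).mapDomain (fun i : Fin n => (i : ℕ))

theorem tl_lt (μ : Fin (n + 1) →₀ ℕ) (i : Fin n) : tl μ (i : ℕ) = μ i.succ :=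
  Finsupp.mapDomain_apply Fin.val_injective _ _

theorem tl_ge (μ : Fin (n + 1) →₀ ℕ) {i : ℕ} (hi : n ≤ i) : tl μ i = 0 := by
  refine Finsupp.mapDomain_of_notMem_range _ _ ?_
  rintro ⟨j, rfl⟩
  exact absurd j.2 (not_lt.2 hi)

/-- the leading exponent of `p ^ (T - |m|) v^m` -/
noncomputable def hd (n T : ℕ) (m : ℕ →₀ ℕ) : Fin (n + 1) →₀ ℕ :=
  Finsupp.equivFunOnFinite.symm (Fin.cons (T - m.degree) fun i : Fin n => m i)

theorem hd_zero (T : ℕ) (m : ℕ →₀ ℕ) : hd n T m 0 = T - m.degree := rfl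

theorem hd_succ (T : ℕ) (m : ℕ →₀ ℕ) (i : Fin n) : hd n T m i.succ = m i := rfl

theorem tl_hd (T : ℕ) {m : ℕ →₀ ℕ} (hm : ∀ i, n ≤ i → m i = 0) : tl (hd n T m) = m := by
  ext i
  by_cases h : i < n
  · exact tl_lt (hd n T m) ⟨i, h⟩
  · rw [tl_ge _ (not_lt.1 h), hm i (not_lt.1 h)]

theorem degree_tl (μ : Fin (n + 1) →₀ ℕ) : (tl μ).degree = ∑ i : Fin n, μ i.succ := by
  have h1 : (tl μ).degree = (tf μ).degree := by
    unfold tl
    rw [Finsupp.mapDomain, Finsupp.sum, map_sum, Finsupp.degree_apply]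
    exact Finset.sum_congr rfl fun i _ => Finsupp.degree_single _ _
  rw [h1, Finsupp.degree_eq_sum]
  rfl

theorem sum_eq (μ : Fin (n + 1) →₀ ℕ) : ∑ i, μ i = μ 0 + (tl μ).degree := by
  rw [degree_tl, Fin.sum_univ_succ]

theorem hd_tl {T : ℕ} {μ : Fin (n + 1) →₀ ℕ} (h : ∑ i, μ i = T) : hd n T (tl μ) = μ := by
  rw [sum_eq] at h
  ext i
  refine Fin.cases ?_ (fun j => ?_) i
  · rw [hd_zero]; omega
  · rw [hd_succ, tl_lt]

/-! ### leading terms -/

/-- the leading term in degree `T` -/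
noncomputable def Lc (n T : ℕ) (f : KK p) : RR p n :=
  ∑ μ ∈ Finset.finsuppAntidiag Finset.univ T,
    monomial μ (PadicInt.toZMod (dv (μ 0) (coeff (tl μ) f)))

theorem coeff_Lc (T : ℕ) (f : KK p) (μ : Fin (n + 1) →₀ ℕ) :
    coeff μ (Lc n T f) =
      if ∑ i, μ i = T then PadicInt.toZMod (dv (μ 0) (coeff (tl μ) f)) else 0 := by
  classical
  unfold Lc
  rw [coeff_sum]
  by_cases h : ∑ i, μ i = T
  · rw [if_pos h, Finset.sum_eq_single μ]
    · rw [coeff_monomial, if_pos rfl]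
    · intro μ' _ hne
      rw [coeff_monomial, if_neg hne]
    · intro h1
      exact absurd (Finset.mem_finsuppAntidiag.2 ⟨h, Finset.subset_univ _⟩) h1
  · rw [if_neg h]
    refine Finset.sum_eq_zero fun μ' hμ' => ?_
    rw [coeff_monomial, if_neg]
    rintro rfl
    exact h (Finset.mem_finsuppAntidiag.1 hμ').1

theorem dvd_of_sum {T : ℕ} {f : KK p} (hf : Dv T f) {μ : Fin (n + 1) →₀ ℕ}
    (h : ∑ i, μ i = T) : (p : ℤ_[p]) ^ (μ 0) ∣ coeff (tl μ) f := by
  have := hf (tl μ)
  rw [sum_eq] at h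
  rwa [show T - (tl μ).degree = μ 0 by omega] at this

theorem Lc_add {T : ℕ} {f g : KK p} (hf : Dv T f) (hg : Dv T g) :
    Lc n T (f + g) = Lc n T f + Lc n T g := by
  ext μ
  rw [coeff_add, coeff_Lc, coeff_Lc, coeff_Lc]
  by_cases h : ∑ i, μ i = T
  · rw [if_pos h, if_pos h, if_pos h, coeff_add, dv_add (dvd_of_sum hf h) (dvd_of_sum hg h),
      map_add]
  · rw [if_neg h, if_neg h, if_neg h, add_zero]

theorem Lc_zero {T : ℕ} {f : KK p} (hf : Dv (T + 1) f) : Lc n T f = 0 := by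
  ext μ
  rw [coeff_zero, coeff_Lc]
  by_cases h : ∑ i, μ i = T
  · rw [if_pos h]
    rw [sum_eq] at h
    obtain ⟨c, hc⟩ := hf (tl μ)
    rw [hc, show T + 1 - (tl μ).degree = μ 0 + 1 by omega, pow_succ, mul_assoc, dv_mul,
      toZMod_p_mul]
  · rw [if_neg h]

theorem Lc_mono {T : ℕ} {m : ℕ →₀ ℕ} (hm : ∀ i, n ≤ i → m i = 0) (hT : m.degree ≤ T)
    (c : ℤ_[p]) : Lc n T (monomial m ((p : ℤ_[p]) ^ (T - m.degree) * c)) =
      monomial (hd n T m) (PadicInt.toZMod c) := by
  classical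
  ext μ
  rw [coeff_Lc, coeff_monomial, coeff_monomial]
  by_cases h : hd n T m = μ
  · rw [if_pos h]
    have h1 : m = tl μ := by rw [← h, tl_hd T hm]
    have h2 : ∑ i, μ i = T := by
      rw [sum_eq, ← h1, ← h, hd_zero]
      omega
    rw [if_pos h2, if_pos h1, ← h, hd_zero, dv_mul]
  · rw [if_neg h]
    by_cases h2 : ∑ i, μ i = T
    · rw [if_pos h2, if_neg, dv_zero, map_zero]
      rintro rfl
      exact h (hd_tl h2)
    · rw [if_neg h2]

theorem Lc_nsup (T : ℕ) {m : ℕ →₀ ℕ} (hm : ¬ ∀ i, n ≤ i → m i = 0) (c : ℤ_[p]) :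
    Lc n T (monomial m c) = 0 := by
  classical
  ext μ
  rw [coeff_zero, coeff_Lc, coeff_monomial]
  by_cases h2 : ∑ i, μ i = T
  · rw [if_pos h2, if_neg, dv_zero, map_zero]
    rintro rfl
    exact hm fun i hi => tl_ge μ hi
  · rw [if_neg h2]

theorem Lc_of_zero (T : ℕ) : Lc n T (0 : KK p) = 0 := Lc_zero (Dv.zero _)

theorem hd_add {T S : ℕ} {m m' : ℕ →₀ ℕ} (h : m.degree ≤ T) (h' : m'.degree ≤ S) :
    hd n (T + S) (m + m') = hd n T m + hd n S m' := by
  ext i
  refine Fin.cases ?_ (fun j => ?_) i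
  · rw [Finsupp.add_apply, hd_zero, hd_zero, hd_zero, map_add]
    omega
  · rw [Finsupp.add_apply, hd_succ, hd_succ, hd_succ, Finsupp.add_apply]

theorem Lc_mul_mono {T S : ℕ} (m m' : ℕ →₀ ℕ) (c c' : ℤ_[p]) :
    Lc n (T + S) ((monomial m ((p : ℤ_[p]) ^ (T - m.degree) * c) : KK p) *
      monomial m' ((p : ℤ_[p]) ^ (S - m'.degree) * c')) =
    Lc n T (monomial m ((p : ℤ_[p]) ^ (T - m.degree) * c)) *
      Lc n S (monomial m' ((p : ℤ_[p]) ^ (S - m'.degree) * c')) := by
  by_cases hm : ∀ i, n ≤ i → m i = 0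
  swap
  · rw [Lc_nsup T hm, zero_mul, monomial_mul, Lc_nsup]
    intro h
    apply hm
    intro i hi
    have := h i hi
    rw [Finsupp.add_apply] at this
    omega
  by_cases hm' : ∀ i, n ≤ i → m' i = 0
  swap
  · rw [Lc_nsup S hm', mul_zero, monomial_mul, Lc_nsup]
    intro h
    apply hm'
    intro i hi
    have := h i hi
    rw [Finsupp.add_apply] at this
    omega
  by_cases hT : m.degree ≤ T
  swap
  · have h1 : Dv (T + 1) (monomial m ((p : ℤ_[p]) ^ (T - m.degree) * c) : KK p) := by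
      have := Dv.mono (T + 1) m c
      rwa [show T + 1 - m.degree = T - m.degree by omega] at this
    rw [Lc_zero h1, zero_mul, Lc_zero]
    have := h1.mul (Dv.mono S m' c')
    rwa [show T + 1 + S = T + S + 1 by ring] at this
  by_cases hS : m'.degree ≤ S
  swap
  · have h1 : Dv (S + 1) (monomial m' ((p : ℤ_[p]) ^ (S - m'.degree) * c') : KK p) := by
      have := Dv.mono (S + 1) m' c'
      rwa [show S + 1 - m'.degree = S - m'.degree by omega] at this
    rw [Lc_zero h1, mul_zero, Lc_zero]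
    exact (Dv.mono T m c).mul h1
  rw [Lc_mono hm hT, Lc_mono hm' hS, monomial_mul, monomial_mul, ← hd_add hT hS, ← map_mul,
    show (p : ℤ_[p]) ^ (T - m.degree) * c * ((p : ℤ_[p]) ^ (S - m'.degree) * c')
      = (p : ℤ_[p]) ^ (T + S - (m + m').degree) * (c * c') by
      rw [map_add, show T + S - (m.degree + m'.degree) = (T - m.degree) + (S - m'.degree) by omega,
        pow_add]
      ring]
  refine Lc_mono (fun i hi => ?_) ?_ _
  · rw [Finsupp.add_apply, hm i hi, hm' i hi]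
  · rw [map_add]
    omega

theorem Lc_mul {T S : ℕ} {f g : KK p} (hf : Dv T f) (hg : Dv S g) :
    Lc n (T + S) (f * g) = Lc n T f * Lc n S g := by
  refine Dv.induction (T := T) (P := fun f => Lc n (T + S) (f * g) = Lc n T f * Lc n S g)
    ?_ ?_ ?_ hf
  · rw [zero_mul, Lc_of_zero, Lc_of_zero, zero_mul]
  · intro m c
    refine Dv.induction (T := S) (P := fun g => Lc n (T + S)
      ((monomial m ((p : ℤ_[p]) ^ (T - m.degree) * c) : KK p) * g) =
        Lc n T (monomial m ((p : ℤ_[p]) ^ (T - m.degree) * c)) * Lc n S g) ?_ ?_ ?_ hg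
    · rw [mul_zero, Lc_of_zero, Lc_of_zero, mul_zero]
    · intro m' c'
      exact Lc_mul_mono m m' c c'
    · intro g g' hg hg' h h'
      rw [mul_add, Lc_add ((Dv.mono T m c).mul hg) ((Dv.mono T m c).mul hg'), h, h',
        Lc_add hg hg', mul_add]
  · intro f f' hf hf' h h'
    rw [add_mul, Lc_add (hf.mul hg) (hf'.mul hg), h, h', Lc_add hf hf', add_mul]

theorem weight_one (μ : Fin (n + 1) →₀ ℕ) :
    Finsupp.weight (fun _ : Fin (n + 1) => (1 : ℤ)) μ = ((∑ i, μ i : ℕ) : ℤ) := by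
  rw [Finsupp.weight_apply, Finsupp.sum_fintype μ (fun _ (c : ℕ) => c • (1 : ℤ))
    (fun _ => zero_smul ℕ _)]
  push_cast
  exact Finset.sum_congr rfl fun i _ => by rw [nsmul_eq_mul, mul_one]

theorem mem_grR' {k s : ℤ} {f : RR p n} :
    f ∈ grR p n k s ↔ ∀ m, coeff m f ≠ 0 →
      Finsupp.weight (fun a : Fin (n + 1) => sV p a) m = k ∧
      Finsupp.weight (fun _ : Fin (n + 1) => (1 : ℤ)) m = s := by
  constructor
  · rintro ⟨h1, h2⟩ m hm
    exact ⟨(mem_weightedHomogeneousSubmodule _ _ _ _).1 h1 hm,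
      (mem_weightedHomogeneousSubmodule _ _ _ _).1 h2 hm⟩
  · intro h
    exact ⟨(mem_weightedHomogeneousSubmodule _ _ _ _).2 fun m hm => (h m hm).1,
      (mem_weightedHomogeneousSubmodule _ _ _ _).2 fun m hm => (h m hm).2⟩

omit hp in
theorem weight_tl (μ : Fin (n + 1) →₀ ℕ) :
    Finsupp.weight (fun i : ℕ => sV p (i + 1)) (tl μ) =
      Finsupp.weight (fun a : Fin (n + 1) => sV p a) μ := by
  rw [Finsupp.weight_apply, Finsupp.weight_apply]
  unfold tl
  rw [Finsupp.sum_mapDomain_index (h := fun (i : ℕ) (c : ℕ) => c • sV p (i + 1))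
      (fun _ => zero_smul ℕ _) (fun _ _ _ => add_smul _ _ _),
    Finsupp.sum_fintype (tf μ) (fun (i : Fin n) (c : ℕ) => c • sV p ((i : ℕ) + 1))
      (fun _ => zero_smul ℕ _),
    Finsupp.sum_fintype μ (fun (i : Fin (n + 1)) (c : ℕ) => c • sV p (i : ℕ))
      (fun _ => zero_smul ℕ _), Fin.sum_univ_succ]
  have h0 : μ 0 • sV p ((0 : Fin (n + 1)) : ℕ) = 0 := by
    have : sV p ((0 : Fin (n + 1)) : ℕ) = 0 := by simp [sV]
    rw [this, smul_zero]
  rw [h0, zero_add]
  refine Finset.sum_congr rfl fun i _ => ?_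
  rw [tf_apply, Fin.val_succ]

theorem coeff_rename_nsup {f : MvPolynomial (Fin n) ℤ_[p]} {m : ℕ →₀ ℕ}
    (hm : ¬ ∀ i, n ≤ i → m i = 0) : coeff m (rename (fun i : Fin n => (i : ℕ)) f) = 0 := by
  by_contra h
  obtain ⟨u, hu, _⟩ := coeff_rename_ne_zero _ _ _ h
  apply hm
  intro i hi
  rw [← hu]
  refine Finsupp.mapDomain_of_notMem_range _ _ ?_
  rintro ⟨j, rfl⟩
  exact absurd j.2 (not_lt.2 hi)

theorem specLead (p : ℕ) [Fact p.Prime] (n : ℕ) : SpecLead p n := by
  classical
  refine ⟨{ L := fun t f => if t < 0 then 0 else Lc n t.toNat f, add := ?_, mul := ?_, zero := ?_,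
            neg := ?_, const := ?_, p_eq := ?_, v_lt := ?_, v_ge := ?_, homog := ?_, surj := ?_,
            inj := ?_ }⟩
  · intro t f g hf hg
    by_cases ht : t < 0
    · rw [if_pos ht, if_pos ht, if_pos ht, add_zero]
    · rw [if_neg ht, if_neg ht, if_neg ht]
      exact Lc_add (mem_II_pow.1 hf) (mem_II_pow.1 hg)
  · intro t s f g ht hs hf hg
    rw [if_neg (by omega), if_neg (by omega), if_neg (by omega), Int.toNat_add ht hs]
    exact Lc_mul (mem_II_pow.1 hf) (mem_II_pow.1 hg)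
  · intro t f ht hf
    rw [if_neg (by omega)]
    refine Lc_zero ?_
    have := mem_II_pow.1 hf
    rwa [show (t + 1).toNat = t.toNat + 1 by omega] at this
  · intro t f ht
    exact if_pos ht
  · intro c
    rw [if_neg (by omega), show ((0 : ℤ).toNat) = 0 from rfl, C_apply]
    have h := Lc_mono (p := p) (n := n) (T := 0) (m := 0) (fun _ _ => rfl) (by rw [map_zero]) c
    rw [map_zero, Nat.sub_self, pow_zero, one_mul] at h
    rw [h, C_apply]
    have h2 : hd n 0 0 = 0 := by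
      ext i
      refine Fin.cases ?_ (fun j => ?_) i
      · rw [hd_zero]; rfl
      · rw [hd_succ]; rfl
    rw [h2]
  · rw [if_neg (by omega), show ((1 : ℤ).toNat) = 1 from rfl]
    have h := Lc_mono (p := p) (n := n) (T := 1) (m := 0) (fun _ _ => rfl) (by rw [map_zero]; omega) 1
    rw [map_zero, Nat.sub_zero, pow_one, mul_one,
      map_one (PadicInt.toZMod : ℤ_[p] →+* ZMod p)] at h
    have h1 : ((p : ℕ) : KK p) = monomial 0 ((p : ℕ) : ℤ_[p]) := by
      rw [← C_apply, map_natCast]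
    have h2 : hd n 1 0 = Finsupp.single 0 1 := by
      ext i
      refine Fin.cases ?_ (fun j => ?_) i
      · rw [hd_zero, Finsupp.single_eq_same, map_zero, Nat.sub_zero]
      · rw [hd_succ, Finsupp.single_eq_of_ne (Fin.succ_ne_zero j)]; rfl
    rw [h1, h, X, h2]
  · intro i h
    rw [if_neg (by omega), show ((1 : ℤ).toNat) = 1 from rfl]
    have h' := Lc_mono (p := p) (n := n) (T := 1) (m := Finsupp.single i 1)
      (fun j hj => Finsupp.single_eq_of_ne (by omega)) (by rw [Finsupp.degree_single]) 1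
    rw [Finsupp.degree_single, Nat.sub_self, pow_zero, mul_one,
      map_one (PadicInt.toZMod : ℤ_[p] →+* ZMod p)] at h'
    have h2 : hd n 1 (Finsupp.single i 1) =
        Finsupp.single (⟨i + 1, by omega⟩ : Fin (n + 1)) 1 := by
      ext j
      refine Fin.cases ?_ (fun j => ?_) j
      · rw [hd_zero, Finsupp.degree_single, Nat.sub_self, Finsupp.single_eq_of_ne]
        intro h0
        exact absurd (congrArg Fin.val h0) (by simp)
      · rw [hd_succ]
        by_cases hij : i = j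
        · subst hij
          rw [Finsupp.single_eq_same]
          have : (⟨(j : ℕ) + 1, by omega⟩ : Fin (n + 1)) = j.succ := Fin.ext (by simp)
          rw [this, Finsupp.single_eq_same]
        · rw [Finsupp.single_eq_of_ne (fun h0 => hij h0.symm), Finsupp.single_eq_of_ne]
          intro h0
          apply hij
          have := congrArg Fin.val h0
          simp at this
          exact this.symm
    rw [X, h', X, h2]
  · intro i hi
    rw [if_neg (by omega), X]
    refine Lc_nsup _ ?_ _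
    intro h
    have := h i hi
    rw [Finsupp.single_eq_same] at this
    exact one_ne_zero this
  · intro t k f ht hf hk
    rw [if_neg (by omega)]
    rw [mem_grR']
    intro μ hμ
    rw [coeff_Lc] at hμ
    by_cases h : ∑ i, μ i = t.toNat
    · rw [if_pos h] at hμ
      have hc : coeff (tl μ) f ≠ 0 := by
        intro h0
        rw [h0, dv_zero, map_zero] at hμ
        exact hμ rfl
      refine ⟨?_, ?_⟩
      · rw [← weight_tl]
        exact hk hc
      · rw [weight_one, h]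
        omega
    · rw [if_neg h] at hμ
      exact absurd rfl hμ
  · intro t k g ht hg
    rw [mem_grR'] at hg
    have hT : ∀ μ ∈ g.support, ∑ i, μ i = t.toNat := by
      intro μ hμ
      have := (hg μ (mem_support_iff.1 hμ)).2
      rw [weight_one] at this
      omega
    have hval : ∀ c : ZMod p, PadicInt.toZMod ((c.val : ℕ) : ℤ_[p]) = c := by
      intro c
      rw [map_natCast, ZMod.natCast_val, ZMod.cast_id]
    have hre : ∀ μ ∈ g.support, rename (fun i : Fin n => (i : ℕ))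
        (monomial (tf μ) ((p : ℤ_[p]) ^ (μ 0) * (((coeff μ g).val : ℕ) : ℤ_[p])) :
          MvPolynomial (Fin n) ℤ_[p]) =
        monomial (tl μ) ((p : ℤ_[p]) ^ (t.toNat - (tl μ).degree) *
          (((coeff μ g).val : ℕ) : ℤ_[p])) := by
      intro μ hμ
      have := hT μ hμ
      rw [sum_eq] at this
      rw [rename_monomial, show t.toNat - (tl μ).degree = μ 0 by omega]
      rfl
    have key : ∀ s ⊆ g.support, Dv t.toNat (∑ μ ∈ s, rename (fun i : Fin n => (i : ℕ))
        (monomial (tf μ) ((p : ℤ_[p]) ^ (μ 0) * (((coeff μ g).val : ℕ) : ℤ_[p])) :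
          MvPolynomial (Fin n) ℤ_[p])) ∧ Lc n t.toNat (∑ μ ∈ s, rename (fun i : Fin n => (i : ℕ))
        (monomial (tf μ) ((p : ℤ_[p]) ^ (μ 0) * (((coeff μ g).val : ℕ) : ℤ_[p])) :
          MvPolynomial (Fin n) ℤ_[p])) = ∑ μ ∈ s, monomial μ (coeff μ g) := by
      intro s
      induction s using Finset.induction_on with
      | empty =>
        intro _
        rw [Finset.sum_empty, Finset.sum_empty]
        exact ⟨Dv.zero _, Lc_of_zero _⟩
      | insert μ s hμ ih =>
        intro hs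
        obtain ⟨h1, h2⟩ := ih (fun x hx => hs (Finset.mem_insert_of_mem hx))
        have hμg := hs (Finset.mem_insert_self μ s)
        rw [Finset.sum_insert hμ, Finset.sum_insert hμ, hre μ hμg]
        refine ⟨(Dv.mono _ _ _).add h1, ?_⟩
        rw [Lc_add (Dv.mono _ _ _) h1, h2, Lc_mono (fun i hi => tl_ge μ hi) ?_, hd_tl (hT μ hμg),
          hval]
        have := hT μ hμg
        rw [sum_eq] at this
        omega
    refine ⟨∑ μ ∈ g.support, monomial (tf μ) ((p : ℤ_[p]) ^ (μ 0) *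
      (((coeff μ g).val : ℕ) : ℤ_[p])), ?_, ?_, ?_⟩
    · rw [map_sum]
      exact mem_II_pow.2 (key _ (Finset.Subset.refl _)).1
    · rw [map_sum]
      unfold HK
      refine IsWeightedHomogeneous.sum _ _ _ (fun μ hμ => ?_)
      rw [hre μ hμ]
      refine isWeightedHomogeneous_monomial _ _ _ ?_
      rw [weight_tl]
      exact (hg μ (mem_support_iff.1 hμ)).1
    · rw [map_sum, if_neg (by omega), (key _ (Finset.Subset.refl _)).2]
      exact g.as_sum.symm
  · intro t f ht hf h0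
    rw [if_neg (by omega)] at h0
    have hf' := mem_II_pow.1 hf
    change _ ∈ II p ^ (t + 1).toNat
    rw [show (t + 1).toNat = t.toNat + 1 by omega, mem_II_pow]
    intro m
    by_cases hm : ∀ i, n ≤ i → m i = 0
    · by_cases hT : m.degree ≤ t.toNat
      · obtain ⟨c, hc⟩ := hf' m
        have h1 := congrArg (coeff (hd n t.toNat m)) h0
        have h2 : ∑ i, hd n t.toNat m i = t.toNat := by
          rw [sum_eq, tl_hd _ hm, hd_zero]
          omega
        rw [coeff_Lc, if_pos h2, tl_hd _ hm, hd_zero, hc, dv_mul, coeff_zero] at h1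
        obtain ⟨c', rfl⟩ := dvd_of_toZMod h1
        rw [hc, show t.toNat + 1 - m.degree = (t.toNat - m.degree) + 1 by omega, pow_succ]
        exact ⟨c', by ring⟩
      · rw [show t.toNat + 1 - m.degree = 0 by omega, pow_zero]
        exact one_dvd _
    · rw [coeff_rename_nsup hm]
      exact dvd_zero _

end Vale.Agent.P221.H136
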