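import Mathlib.Algebra.Module.Prod
import Mathlib.LinearAlgebra.Prod
import Mathlib.Tactic

/-!
# P221, part T: Koszul chains of a graded module (helper136)

`KC N j = N^(2^j)` with the total Koszul differential of `x 0, …, x (j-1)`, as an iterated mapping
cone; `KG` is the grading (homological degree `i`, degree `k`, filtration `s`).
-/

namespace Vale.Agent.P221.H136

/-- Koszul chains on `j` elements -/
def KC (N : Type) : ℕ → Type
  | 0 => N
  | j + 1 => KC N j × KC N j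

instance instKCGroup (N : Type) [AddCommGroup N] : ∀ j, AddCommGroup (KC N j)
  | 0 => inferInstanceAs (AddCommGroup N)
  | j + 1 =>
    letI := instKCGroup N j
    inferInstanceAs (AddCommGroup (KC N j × KC N j))

instance instKCModule {R : Type} [CommRing R] (N : Type) [AddCommGroup N] [Module R N] :
    ∀ j, Module R (KC N j)
  | 0 => inferInstanceAs (Module R N)
  | j + 1 =>
    letI := instKCModule (R := R) N j
    inferInstanceAs (Module R (KC N j × KC N j))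

section

variable {R : Type} [CommRing R] {N N' : Type} [AddCommGroup N] [Module R N] [AddCommGroup N']
  [Module R N']

/-- first component -/
def fstK (R : Type) [CommRing R] (N : Type) [AddCommGroup N] [Module R N] (j : ℕ) :
    KC N (j + 1) →ₗ[R] KC N j := LinearMap.fst R (KC N j) (KC N j)

/-- second component -/
def sndK (R : Type) [CommRing R] (N : Type) [AddCommGroup N] [Module R N] (j : ℕ) :
    KC N (j + 1) →ₗ[R] KC N j := LinearMap.snd R (KC N j) (KC N j)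

/-- pair -/
def mkK {N : Type} {j : ℕ} (y z : KC N j) : KC N (j + 1) := (y, z)

@[simp] theorem fstK_mkK {j : ℕ} (y z : KC N j) : fstK R N j (mkK y z) = y := rfl

@[simp] theorem sndK_mkK {j : ℕ} (y z : KC N j) : sndK R N j (mkK y z) = z := rfl

theorem mkK_eta {j : ℕ} (y : KC N (j + 1)) : mkK (fstK R N j y) (sndK R N j y) = y := rfl

theorem extK {j : ℕ} {y z : KC N (j + 1)} (h1 : fstK R N j y = fstK R N j z)
    (h2 : sndK R N j y = sndK R N j z) : y = z := Prod.ext h1 h2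

/-- the differential -/
def KD (x : ℕ → R) (N : Type) [AddCommGroup N] [Module R N] : ∀ j, KC N j →ₗ[R] KC N j
  | 0 => 0
  | j + 1 => LinearMap.prod ((KD x N j).comp (fstK R N j) + x j • sndK R N j)
      (-(KD x N j).comp (sndK R N j))

variable (x : ℕ → R) (w : ℕ → ℤ)

theorem KD_zero : KD x N 0 = 0 := rfl

theorem fst_KD (j : ℕ) (y : KC N (j + 1)) :
    fstK R N j (KD x N (j + 1) y) = KD x N j (fstK R N j y) + x j • sndK R N j y := rfl

theorem snd_KD (j : ℕ) (y : KC N (j + 1)) :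
    sndK R N j (KD x N (j + 1) y) = -KD x N j (sndK R N j y) := rfl

theorem KD_KD (j : ℕ) (y : KC N j) : KD x N j (KD x N j y) = 0 := by
  induction j with
  | zero => rfl
  | succ j ih =>
    refine extK (R := R) ?_ ?_
    · rw [fst_KD, fst_KD, snd_KD, map_add, ih, map_smul, map_zero, smul_neg]
      simp
    · rw [snd_KD, snd_KD, map_neg, ih, map_zero, neg_zero, neg_zero]

/-- the grading of the Koszul chains -/
def KG (R : Type) [CommRing R] {N : Type} [AddCommGroup N] [Module R N] (w : ℕ → ℤ)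
    (gr : ℤ → ℤ → AddSubgroup N) : ∀ (j : ℕ), ℤ → ℤ → ℤ → AddSubgroup (KC N j)
  | 0, i, k, s => if i = 0 then gr k s else ⊥
  | j + 1, i, k, s =>
      (KG R w gr j i k s).comap (fstK R N j).toAddMonoidHom ⊓
      (KG R w gr j (i - 1) (k - w j) (s - 1)).comap (sndK R N j).toAddMonoidHom

variable {w} {gr : ℤ → ℤ → AddSubgroup N} {gr' : ℤ → ℤ → AddSubgroup N'}

theorem mem_KG_zero {i k s : ℤ} {y : KC N 0} :
    y ∈ KG R w gr 0 i k s ↔ (i = 0 ∧ (y : N) ∈ gr k s) ∨ (i ≠ 0 ∧ y = 0) := by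
  by_cases h : i = 0
  · subst h
    simp only [KG, ne_eq, not_true_eq_false, false_and, or_false, true_and]
    exact Iff.rfl
  · simp only [KG, h, false_and, false_or, ne_eq, not_false_eq_true, true_and]
    exact Iff.rfl

theorem mem_KG_succ {j : ℕ} {i k s : ℤ} {y : KC N (j + 1)} :
    y ∈ KG R w gr (j + 1) i k s ↔ fstK R N j y ∈ KG R w gr j i k s ∧
      sndK R N j y ∈ KG R w gr j (i - 1) (k - w j) (s - 1) := Iff.rfl

/-- `x j` maps degree `(k, s)` to `(k + w j, s + 1)` for all `j < m` -/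
def XGr (x : ℕ → R) (w : ℕ → ℤ) (m : ℕ) (gr : ℤ → ℤ → AddSubgroup N) : Prop :=
  ∀ j, j < m → ∀ (k s : ℤ) (y : N), y ∈ gr k s → x j • y ∈ gr (k + w j) (s + 1)

theorem XGr.smul_mem {m : ℕ} (h : XGr x w m gr) {a : ℕ} (ha : a < m) (j : ℕ) {i k s : ℤ}
    {y : KC N j} (hy : y ∈ KG R w gr j i k s) : x a • y ∈ KG R w gr j i (k + w a) (s + 1) := by
  induction j generalizing i k s with
  | zero =>
    rw [mem_KG_zero] at hy ⊢
    rcases hy with ⟨h0, hy⟩ | ⟨h0, hy⟩
    · exact Or.inl ⟨h0, h a ha k s _ hy⟩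
    · exact Or.inr ⟨h0, by rw [hy, smul_zero]⟩
  | succ j ih =>
    rw [mem_KG_succ] at hy ⊢
    rw [map_smul, map_smul]
    refine ⟨ih hy.1, ?_⟩
    have := ih hy.2
    rwa [show k - w j + w a = k + w a - w j by ring, show s - 1 + 1 = s + 1 - 1 by ring] at this

theorem XGr.KD_mem {m : ℕ} (h : XGr x w m gr) (j : ℕ) (hj : j ≤ m) {i k s : ℤ}
    {y : KC N j} (hy : y ∈ KG R w gr j i k s) : KD x N j y ∈ KG R w gr j (i - 1) k s := by
  induction j generalizing i k s with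
  | zero =>
    rw [KD_zero, LinearMap.zero_apply]
    exact zero_mem _
  | succ j ih =>
    rw [mem_KG_succ] at hy ⊢
    rw [fst_KD, snd_KD]
    refine ⟨add_mem (ih (by omega) hy.1) ?_, neg_mem (ih (by omega) hy.2)⟩
    have := h.smul_mem x (a := j) (by omega) j hy.2
    rwa [sub_add_cancel, sub_add_cancel] at this

/-- exactness at homological degree `i`, in degree `k` (all filtrations) -/
def KEx (x : ℕ → R) (w : ℕ → ℤ) (gr : ℤ → ℤ → AddSubgroup N) (j : ℕ) (i k : ℤ) : Prop :=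
  ∀ (s : ℤ) (y : KC N j), y ∈ KG R w gr j i k s → KD x N j y = 0 →
    ∃ z ∈ KG R w gr j (i + 1) k s, KD x N j z = y

/-- induced map -/
def Kmap (f : N →ₗ[R] N') : ∀ j, KC N j →ₗ[R] KC N' j
  | 0 => f
  | j + 1 => LinearMap.prodMap (Kmap f j) (Kmap f j)

theorem fst_Kmap (f : N →ₗ[R] N') (j : ℕ) (y : KC N (j + 1)) :
    fstK R N' j (Kmap f (j + 1) y) = Kmap f j (fstK R N j y) := rfl

theorem snd_Kmap (f : N →ₗ[R] N') (j : ℕ) (y : KC N (j + 1)) :
    sndK R N' j (Kmap f (j + 1) y) = Kmap f j (sndK R N j y) := rfl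

theorem Kmap_KD (f : N →ₗ[R] N') (j : ℕ) (y : KC N j) :
    Kmap f j (KD x N j y) = KD x N' j (Kmap f j y) := by
  induction j with
  | zero => exact map_zero f
  | succ j ih =>
    refine extK (R := R) ?_ ?_
    · rw [fst_Kmap, fst_KD, fst_KD, fst_Kmap, snd_Kmap, map_add, map_smul, ih]
    · rw [snd_Kmap, snd_KD, snd_KD, snd_Kmap, map_neg, ih]

theorem Kmap_mem {f : N →ₗ[R] N'} (hf : ∀ k s y, y ∈ gr k s → f y ∈ gr' k s) (j : ℕ) {i k s : ℤ}
    {y : KC N j} (hy : y ∈ KG R w gr j i k s) : Kmap f j y ∈ KG R w gr' j i k s := by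
  induction j generalizing i k s with
  | zero =>
    rw [mem_KG_zero] at hy ⊢
    rcases hy with ⟨h0, hy⟩ | ⟨h0, hy⟩
    · exact Or.inl ⟨h0, hf k s _ hy⟩
    · exact Or.inr ⟨h0, by rw [hy, map_zero]⟩
  | succ j ih => exact ⟨ih hy.1, ih hy.2⟩

theorem Kmap_surj {f : N →ₗ[R] N'} (hf : ∀ k s y, y ∈ gr' k s → ∃ z ∈ gr k s, f z = y) (j : ℕ)
    {i k s : ℤ} {y : KC N' j} (hy : y ∈ KG R w gr' j i k s) :
    ∃ z ∈ KG R w gr j i k s, Kmap f j z = y := by
  induction j generalizing i k s with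
  | zero =>
    rw [mem_KG_zero] at hy
    rcases hy with ⟨h0, hy⟩ | ⟨h0, hy⟩
    · obtain ⟨z, hz, hzy⟩ := hf k s _ hy
      exact ⟨z, mem_KG_zero.2 (Or.inl ⟨h0, hz⟩), hzy⟩
    · exact ⟨0, zero_mem _, by rw [hy, map_zero]⟩
  | succ j ih =>
    obtain ⟨z1, h1, h1'⟩ := ih hy.1
    obtain ⟨z2, h2, h2'⟩ := ih hy.2
    exact ⟨mkK z1 z2, ⟨h1, h2⟩, extK (R := R) h1' h2'⟩

theorem mem_KG_ker {f : N →ₗ[R] N'} (j : ℕ) {i k s : ℤ} {y : KC N j} :
    y ∈ KG R w (fun k s => gr k s ⊓ f.toAddMonoidHom.ker) j i k s ↔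
      y ∈ KG R w gr j i k s ∧ Kmap f j y = 0 := by
  induction j generalizing i k s with
  | zero =>
    rw [mem_KG_zero, mem_KG_zero]
    constructor
    · rintro (⟨h0, h1, h2⟩ | ⟨h0, h1⟩)
      · exact ⟨Or.inl ⟨h0, h1⟩, h2⟩
      · exact ⟨Or.inr ⟨h0, h1⟩, by rw [h1, map_zero]⟩
    · rintro ⟨⟨h0, h1⟩ | ⟨h0, h1⟩, h2⟩
      · exact Or.inl ⟨h0, h1, h2⟩
      · exact Or.inr ⟨h0, h1⟩
  | succ j ih =>
    rw [mem_KG_succ, mem_KG_succ, ih, ih]
    constructor
    · rintro ⟨⟨h1, h2⟩, h3, h4⟩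
      exact ⟨⟨h1, h3⟩, extK (R := R) (by rw [fst_Kmap, h2, map_zero])
        (by rw [snd_Kmap, h4, map_zero])⟩
    · rintro ⟨⟨h1, h3⟩, h2⟩
      refine ⟨⟨h1, ?_⟩, h3, ?_⟩
      · rw [← fst_Kmap, h2, map_zero]
      · rw [← snd_Kmap, h2, map_zero]

theorem KG_neg (j : ℕ) {i k s : ℤ} (hi : i < 0) {y : KC N j} (hy : y ∈ KG R w gr j i k s) :
    y = 0 := by
  induction j generalizing i k s with
  | zero =>
    rw [mem_KG_zero] at hy
    rcases hy with ⟨h0, hy⟩ | ⟨h0, hy⟩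
    · omega
    · exact hy
  | succ j ih =>
    refine extK (R := R) ?_ ?_
    · rw [map_zero]; exact ih hi hy.1
    · rw [map_zero]; exact ih (by omega) hy.2

theorem KG_large (j : ℕ) {i k s : ℤ} (hi : (j : ℤ) < i) {y : KC N j}
    (hy : y ∈ KG R w gr j i k s) : y = 0 := by
  induction j generalizing i k s with
  | zero =>
    rw [mem_KG_zero] at hy
    rcases hy with ⟨h0, hy⟩ | ⟨h0, hy⟩
    · push_cast at hi; omega
    · exact hy
  | succ j ih =>
    push_cast at hi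
    refine extK (R := R) ?_ ?_
    · rw [map_zero]; exact ih (by omega) hy.1
    · rw [map_zero]; exact ih (by omega) hy.2

/-- the Koszul chains in degree `k` only see the degrees `k - w_0 - … - w_(j-1), …, k`. -/
theorem KG_congr {gr₁ gr₂ : ℤ → ℤ → AddSubgroup N} (hw : ∀ a, 0 ≤ w a) (j : ℕ) {i k s : ℤ}
    (h : ∀ k', k - ∑ a ∈ Finset.range j, w a ≤ k' → k' ≤ k → ∀ s, gr₁ k' s = gr₂ k' s) :
    KG R w gr₁ j i k s = KG R w gr₂ j i k s := by
  induction j generalizing i k s with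
  | zero =>
    have : gr₁ k s = gr₂ k s := h k (by simp) le_rfl s
    simp only [KG, this]
  | succ j ih =>
    have h1 : KG R w gr₁ j i k s = KG R w gr₂ j i k s := by
      refine ih (fun k' hk hk' s => h k' ?_ hk' s)
      rw [Finset.sum_range_succ]
      have := hw j
      omega
    have h2 : KG R w gr₁ j (i - 1) (k - w j) (s - 1) = KG R w gr₂ j (i - 1) (k - w j) (s - 1) := by
      refine ih (fun k' hk hk' s => h k' ?_ ?_ s)
      · rw [Finset.sum_range_succ]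
        omega
      · have := hw j
        omega
    simp only [KG, h1, h2]

theorem KG_bot (hw : ∀ a, 0 ≤ w a) (j : ℕ) {i k s : ℤ}
    (h : ∀ k', k - ∑ a ∈ Finset.range j, w a ≤ k' → k' ≤ k → ∀ s, gr k' s = ⊥) {y : KC N j}
    (hy : y ∈ KG R w gr j i k s) : y = 0 := by
  induction j generalizing i k s with
  | zero =>
    rw [mem_KG_zero] at hy
    rcases hy with ⟨h0, hy⟩ | ⟨h0, hy⟩
    · have h1 : gr k s = ⊥ := h k (by simp) le_rfl s
      have h2 : ∀ z : N, z ∈ gr k s → z = 0 := fun z hz => by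
        rw [h1, AddSubgroup.mem_bot] at hz
        exact hz
      exact h2 y hy
    · exact hy
  | succ j ih =>
    refine extK (R := R) ?_ ?_
    · rw [map_zero]
      refine ih (fun k' hk hk' s => h k' ?_ hk' s) hy.1
      rw [Finset.sum_range_succ]
      have := hw j
      omega
    · rw [map_zero]
      refine ih (fun k' hk hk' s => h k' ?_ ?_ s) hy.2
      · rw [Finset.sum_range_succ]
        omega
      · have := hw j
        omega

theorem KEx.congr {gr₁ gr₂ : ℤ → ℤ → AddSubgroup N} (hw : ∀ a, 0 ≤ w a) (j : ℕ) {i k : ℤ}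
    (h : ∀ k', k - ∑ a ∈ Finset.range j, w a ≤ k' → k' ≤ k → ∀ s, gr₁ k' s = gr₂ k' s)
    (h1 : KEx x w gr₁ j i k) : KEx x w gr₂ j i k := by
  intro s y hy hd
  rw [← KG_congr hw j h] at hy
  obtain ⟨z, hz, hzy⟩ := h1 s y hy hd
  rw [KG_congr hw j h] at hz
  exact ⟨z, hz, hzy⟩

theorem KEx.of_zero {j : ℕ} {i k : ℤ} (h : ∀ s, ∀ y ∈ KG R w gr j i k s, y = 0) :
    KEx x w gr j i k := fun s y hy _ => ⟨0, zero_mem _, by rw [h s y hy, map_zero]⟩

/-- the element `y` in homological degree `0` -/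
def Kι (N : Type) [AddCommGroup N] : ∀ j, N → KC N j
  | 0, y => y
  | j + 1, y => mkK (Kι N j y) 0

theorem fst_Kι (j : ℕ) (y : N) : fstK R N j (Kι N (j + 1) y) = Kι N j y := rfl

theorem snd_Kι (j : ℕ) (y : N) : sndK R N j (Kι N (j + 1) y) = 0 := rfl

theorem Kι_zero (j : ℕ) : Kι N j 0 = 0 := by
  induction j with
  | zero => rfl
  | succ j ih => exact Prod.ext ih rfl

theorem Kι_add (j : ℕ) (y z : N) : Kι N j (y + z) = Kι N j y + Kι N j z := by
  induction j with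
  | zero => rfl
  | succ j ih => exact Prod.ext ih (add_zero (0 : KC N j)).symm

theorem Kι_sub (j : ℕ) (y z : N) : Kι N j (y - z) = Kι N j y - Kι N j z := by
  rw [eq_sub_iff_add_eq, ← Kι_add, sub_add_cancel]

theorem Kι_smul (j : ℕ) (c : R) (y : N) : Kι N j (c • y) = c • Kι N j y := by
  induction j with
  | zero => rfl
  | succ j ih => exact Prod.ext ih (smul_zero c).symm

theorem Kι_inj (j : ℕ) {y z : N} (h : Kι N j y = Kι N j z) : y = z := by
  induction j with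
  | zero => exact h
  | succ j ih => exact ih (congrArg Prod.fst h)

theorem KD_Kι (j : ℕ) (y : N) : KD x N j (Kι N j y) = 0 := by
  induction j with
  | zero => rfl
  | succ j ih =>
    refine extK (R := R) ?_ ?_
    · rw [fst_KD, fst_Kι, snd_Kι, ih, smul_zero, add_zero, map_zero]
    · rw [snd_KD, snd_Kι, map_zero, map_zero, neg_zero]

theorem Kι_mem (j : ℕ) {k s : ℤ} {y : N} (hy : y ∈ gr k s) : Kι N j y ∈ KG R w gr j 0 k s := by
  induction j with
  | zero => exact mem_KG_zero.2 (Or.inl ⟨rfl, hy⟩)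
  | succ j ih =>
    refine mem_KG_succ.2 ⟨ih, ?_⟩
    rw [snd_Kι]
    exact zero_mem _

theorem exists_Kι (j : ℕ) {k s : ℤ} {y : KC N j} (hy : y ∈ KG R w gr j 0 k s) :
    ∃ z ∈ gr k s, Kι N j z = y := by
  induction j with
  | zero =>
    rw [mem_KG_zero] at hy
    rcases hy with ⟨_, hy⟩ | ⟨h0, _⟩
    · exact ⟨y, hy, rfl⟩
    · exact absurd rfl h0
  | succ j ih =>
    obtain ⟨z, hz, hzy⟩ := ih hy.1
    refine ⟨z, hz, extK (R := R) hzy ?_⟩
    rw [snd_Kι]
    exact (KG_neg j (by norm_num) hy.2).symm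

/-- `y ∈ ∑_{a<j} x_a • gr (k - w_a) (s - 1)` -/
def KB (x : ℕ → R) (w : ℕ → ℤ) (gr : ℤ → ℤ → AddSubgroup N) (k s : ℤ) : ℕ → N → Prop
  | 0, y => y = 0
  | j + 1, y => ∃ u ∈ gr (k - w j) (s - 1), KB x w gr k s j (y - x j • u)

theorem KB_iff (j : ℕ) {k s : ℤ} {y : N} :
    KB x w gr k s j y ↔ ∃ z ∈ KG R w gr j 1 k s, KD x N j z = Kι N j y := by
  induction j generalizing y with
  | zero =>
    constructor
    · intro h
      exact ⟨0, zero_mem _, by rw [map_zero]; exact h.symm⟩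
    · rintro ⟨z, _, hz⟩
      exact hz.symm
  | succ j ih =>
    constructor
    · rintro ⟨u, hu, h⟩
      obtain ⟨z, hz, hzy⟩ := ih.1 h
      refine ⟨mkK z (Kι N j u), ⟨hz, ?_⟩, ?_⟩
      · rw [sub_self]
        exact Kι_mem j hu
      · refine extK (R := R) ?_ ?_
        · rw [fst_KD, fstK_mkK, sndK_mkK, hzy, fst_Kι, Kι_sub, Kι_smul, sub_add_cancel]
        · rw [snd_KD, sndK_mkK, snd_Kι, KD_Kι, neg_zero]
    · rintro ⟨z, hz, hzy⟩
      have h2 : sndK R N j z ∈ KG R w gr j 0 (k - w j) (s - 1) := hz.2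
      obtain ⟨u, hu, huz⟩ := exists_Kι j h2
      refine ⟨u, hu, ih.2 ⟨fstK R N j z, hz.1, ?_⟩⟩
      have := congrArg (fstK R N j) hzy
      rw [fst_KD, fst_Kι, ← huz] at this
      rw [Kι_sub, Kι_smul, ← this, add_sub_cancel_right]

/-- exactness at `0` in degree `k`: every element of degree `k` is decomposable -/
theorem KEx_zero_iff (j : ℕ) {k : ℤ} :
    KEx x w gr j 0 k ↔ ∀ s, ∀ y ∈ gr k s, KB x w gr k s j y := by
  constructor
  · intro h s y hy
    rw [KB_iff]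
    have := h s (Kι N j y) (Kι_mem j hy) (KD_Kι x j y)
    rwa [zero_add] at this
  · intro h s y hy _
    obtain ⟨z, hz, rfl⟩ := exists_Kι j hy
    have := (KB_iff x j).1 (h s z hz)
    rwa [zero_add]

/-- the long exact sequence, I -/
theorem KEx.ker {m : ℕ} {f : N →ₗ[R] N'} (hx : XGr x w m gr)
    (hf : ∀ k s y, y ∈ gr k s → f y ∈ gr' k s)
    (hs : ∀ k s y, y ∈ gr' k s → ∃ z ∈ gr k s, f z = y) {i k : ℤ}
    (hF : ∀ s, ∀ y ∈ KG R w (fun k s => gr k s ⊓ f.toAddMonoidHom.ker) m i k s, KD x N m y = 0 →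
      ∃ z ∈ KG R w gr m (i + 1) k s, KD x N m z = y)
    (hN : KEx x w gr' m (i + 1) k) :
    KEx x w (fun k s => gr k s ⊓ f.toAddMonoidHom.ker) m i k := by
  intro s y hy hd
  obtain ⟨z, hz, hzy⟩ := hF s y hy hd
  have hy' := (mem_KG_ker m).1 hy
  obtain ⟨u, hu, hud⟩ := hN s (Kmap f m z) (Kmap_mem hf m hz) (by rw [← Kmap_KD, hzy]; exact hy'.2)
  obtain ⟨v, hv, hvu⟩ := Kmap_surj hs m hu
  refine ⟨z - KD x N m v, ?_, ?_⟩
  · rw [mem_KG_ker]
    refine ⟨sub_mem hz ?_, ?_⟩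
    · have := hx.KD_mem x m le_rfl hv
      rwa [add_sub_cancel_right] at this
    · rw [map_sub, Kmap_KD, hvu, hud, sub_self]
  · rw [map_sub, KD_KD, sub_zero, hzy]

/-- the long exact sequence, II -/
theorem KEx.quot {m : ℕ} {f : N →ₗ[R] N'} (hx : XGr x w m gr)
    (hf : ∀ k s y, y ∈ gr k s → f y ∈ gr' k s)
    (hs : ∀ k s y, y ∈ gr' k s → ∃ z ∈ gr k s, f z = y) {i k : ℤ}
    (hF : KEx x w gr m (i + 1) k)
    (hK : KEx x w (fun k s => gr k s ⊓ f.toAddMonoidHom.ker) m i k) :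
    KEx x w gr' m (i + 1) k := by
  intro s y hy hd
  obtain ⟨z, hz, hzy⟩ := Kmap_surj hs m hy
  have hz' := hx.KD_mem x m le_rfl hz
  rw [add_sub_cancel_right] at hz'
  obtain ⟨u, hu, hud⟩ := hK s (KD x N m z) ((mem_KG_ker m).2 ⟨hz', by rw [Kmap_KD, hzy, hd]⟩)
    (KD_KD x m z)
  rw [mem_KG_ker] at hu
  obtain ⟨v, hv, hvd⟩ := hF s (z - u) (sub_mem hz hu.1) (by rw [map_sub, hud, sub_self])
  refine ⟨Kmap f m v, Kmap_mem hf m hv, ?_⟩
  rw [← Kmap_KD, hvd, map_sub, hu.2, sub_zero, hzy]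

/-- exactness of the cone: regular sequences -/
theorem KEx.succ {j : ℕ} {i k : ℤ} (hx : XGr x w (j + 1) gr) (hi : 1 ≤ i)
    (h1 : ∀ i k, 1 ≤ i → KEx x w gr j i k)
    (h0 : ∀ k s, ∀ y ∈ gr k s, KB x w gr (k + w j) (s + 1) j (x j • y) → KB x w gr k s j y) :
    KEx x w gr (j + 1) i k := by
  intro s y hy hd
  have hd1 := congrArg (fstK R N j) hd
  have hd2 := congrArg (sndK R N j) hd
  rw [fst_KD, map_zero] at hd1
  rw [snd_KD, map_zero, neg_eq_zero] at hd2
  -- the second component is a boundary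
  have key : ∃ z ∈ KG R w gr j i (k - w j) (s - 1), KD x N j z = sndK R N j y := by
    rcases eq_or_lt_of_le hi with h | h
    · subst h
      have hy2 : sndK R N j y ∈ KG R w gr j 0 (k - w j) (s - 1) := hy.2
      obtain ⟨u, hu, huy⟩ := exists_Kι j hy2
      have h3 : KB x w gr k s j (x j • u) := by
        rw [KB_iff]
        refine ⟨-fstK R N j y, neg_mem hy.1, ?_⟩
        rw [map_neg, Kι_smul, huy, neg_eq_iff_add_eq_zero]
        exact hd1
      have h4 := h0 (k - w j) (s - 1) u hu (by rwa [sub_add_cancel, sub_add_cancel])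
      rw [← huy]
      exact (KB_iff x j).1 h4
    · obtain ⟨z, hz, hzy⟩ := h1 (i - 1) (k - w j) (by omega) (s - 1) _ hy.2 hd2
      rw [sub_add_cancel] at hz
      exact ⟨z, hz, hzy⟩
  obtain ⟨z, hz, hzy⟩ := key
  have hz' := hx.smul_mem x (a := j) (by omega) j hz
  rw [sub_add_cancel, sub_add_cancel] at hz'
  obtain ⟨v, hv, hvy⟩ := h1 i k hi s (fstK R N j y + x j • z) (add_mem hy.1 hz')
    (by rw [map_add, map_smul, hzy]; exact hd1)
  refine ⟨mkK v (-z), mem_KG_succ.2 ⟨hv, ?_⟩, ?_⟩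
  · rw [sndK_mkK, add_sub_cancel_right]
    exact neg_mem hz
  · refine extK (R := R) ?_ ?_
    · rw [fst_KD, fstK_mkK, sndK_mkK, hvy, smul_neg, add_neg_cancel_right]
    · rw [snd_KD, sndK_mkK, map_neg, neg_neg, hzy]

end

end Vale.Agent.P221.H136
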