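import Vale.Agent.P221.H598.Van
import Mathlib.Algebra.MvPolynomial.Division
import Vale.Agent.P221.H136.Kos

/-!
# P221, part T: `SpecRes` (helper136)

Every finitely generated graded `R`-module has a minimal free resolution whose generators are
detected by Koszul homology; the Koszul homology of a truncation is concentrated in the window.
-/

open MvPolynomial Vale.Agent.P221.T

namespace Vale.Agent.P221.H136

section Ring

variable {p n : ℕ}

/-- degree of a monomial -/
noncomputable def wt (p : ℕ) {n : ℕ} (m : Fin (n + 1) →₀ ℕ) : ℤ :=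
  Finsupp.weight (fun a : Fin (n + 1) => sV p a) m

/-- filtration of a monomial -/
noncomputable def fl {n : ℕ} (m : Fin (n + 1) →₀ ℕ) : ℤ :=
  Finsupp.weight (fun _ : Fin (n + 1) => (1 : ℤ)) m

theorem wt_add (m m' : Fin (n + 1) →₀ ℕ) : wt p (m + m') = wt p m + wt p m' := map_add _ _ _

theorem fl_add (m m' : Fin (n + 1) →₀ ℕ) : fl (m + m') = fl m + fl m' := map_add _ _ _

theorem wt_zero : wt p (0 : Fin (n + 1) →₀ ℕ) = 0 := map_zero _

theorem fl_zero : fl (0 : Fin (n + 1) →₀ ℕ) = 0 := map_zero _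

theorem wt_single (a : Fin (n + 1)) : wt p (Finsupp.single a 1) = sV p a := by
  unfold wt
  rw [Finsupp.weight_single, one_smul]

theorem fl_single (a : Fin (n + 1)) : fl (Finsupp.single a 1) = 1 := by
  unfold fl
  rw [Finsupp.weight_single, one_smul]

theorem fl_eq (m : Fin (n + 1) →₀ ℕ) : fl m = ∑ a, (m a : ℤ) := by
  unfold fl
  rw [Finsupp.weight_apply, Finsupp.sum_fintype m (fun _ c => c • (1 : ℤ)) (fun _ => zero_smul _ _)]
  exact Finset.sum_congr rfl fun a _ => by rw [nsmul_eq_mul, mul_one]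

theorem fl_nonneg (m : Fin (n + 1) →₀ ℕ) : 0 ≤ fl m := by
  rw [fl_eq]
  exact Finset.sum_nonneg fun a _ => by positivity

theorem eq_zero_of_fl {m : Fin (n + 1) →₀ ℕ} (h : fl m = 0) : m = 0 := by
  rw [fl_eq, Finset.sum_eq_zero_iff_of_nonneg (fun a _ => by positivity)] at h
  ext a
  have := h a (Finset.mem_univ a)
  exact_mod_cast this

theorem mem_grR {k s : ℤ} {f : RR p n} :
    f ∈ grR p n k s ↔ ∀ m, coeff m f ≠ 0 → wt p m = k ∧ fl m = s := by
  constructor
  · rintro ⟨h1, h2⟩ m hm
    exact ⟨(mem_weightedHomogeneousSubmodule _ _ _ _).1 h1 hm,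
      (mem_weightedHomogeneousSubmodule _ _ _ _).1 h2 hm⟩
  · intro h
    exact ⟨(mem_weightedHomogeneousSubmodule _ _ _ _).2 fun m hm => (h m hm).1,
      (mem_weightedHomogeneousSubmodule _ _ _ _).2 fun m hm => (h m hm).2⟩

theorem grR_mul {k s k' s' : ℤ} {f g : RR p n} (hf : f ∈ grR p n k s) (hg : g ∈ grR p n k' s') :
    f * g ∈ grR p n (k + k') (s + s') :=
  ⟨(mem_weightedHomogeneousSubmodule _ _ _ _).2
      (((mem_weightedHomogeneousSubmodule _ _ _ _).1 hf.1).mul
        ((mem_weightedHomogeneousSubmodule _ _ _ _).1 hg.1)),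
    (mem_weightedHomogeneousSubmodule _ _ _ _).2
      (((mem_weightedHomogeneousSubmodule _ _ _ _).1 hf.2).mul
        ((mem_weightedHomogeneousSubmodule _ _ _ _).1 hg.2))⟩

theorem grR_C (c : ZMod p) : (C c : RR p n) ∈ grR p n 0 0 := by
  rw [mem_grR]
  intro m hm
  rw [coeff_C] at hm
  by_cases h : 0 = m
  · rw [← h]; exact ⟨wt_zero, fl_zero⟩
  · rw [if_neg h] at hm; exact absurd rfl hm

/-- homogeneous component -/
noncomputable def comp (k s : ℤ) (f : RR p n) : RR p n :=
  weightedHomogeneousComponent (fun _ : Fin (n + 1) => (1 : ℤ)) s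
    (weightedHomogeneousComponent (fun a : Fin (n + 1) => sV p a) k f)

theorem coeff_comp (k s : ℤ) (f : RR p n) (m : Fin (n + 1) →₀ ℕ) :
    coeff m (comp k s f) = if wt p m = k ∧ fl m = s then coeff m f else 0 := by
  unfold comp
  rw [coeff_weightedHomogeneousComponent, coeff_weightedHomogeneousComponent]
  change (if fl m = s then if wt p m = k then coeff m f else 0 else 0) = _
  by_cases h1 : fl m = s
  · by_cases h2 : wt p m = k
    · rw [if_pos h1, if_pos h2, if_pos ⟨h2, h1⟩]
    · rw [if_pos h1, if_neg h2, if_neg (fun h => h2 h.1)]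
  · rw [if_neg h1, if_neg (fun h => h1 h.2)]

theorem comp_mem (k s : ℤ) (f : RR p n) : comp k s f ∈ grR p n k s := by
  rw [mem_grR]
  intro m hm
  rw [coeff_comp] at hm
  by_contra h
  rw [if_neg h] at hm
  exact hm rfl

theorem comp_sum {ι : Type} (t : Finset ι) (k s : ℤ) (f : ι → RR p n) :
    comp k s (∑ i ∈ t, f i) = ∑ i ∈ t, comp k s (f i) := by
  unfold comp
  rw [map_sum, map_sum]

theorem comp_of_mem {k s : ℤ} {f : RR p n} (hf : f ∈ grR p n k s) : comp k s f = f := by
  ext m
  rw [coeff_comp]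
  by_cases h : wt p m = k ∧ fl m = s
  · rw [if_pos h]
  · rw [if_neg h]
    by_contra h'
    exact h (mem_grR.1 hf m (Ne.symm h'))

theorem comp_mul (k s : ℤ) {k' s' : ℤ} (f : RR p n) {g : RR p n} (hg : g ∈ grR p n k' s') :
    comp (k + k') (s + s') (f * g) = comp k s f * g := by
  ext m
  rw [coeff_comp, coeff_mul, coeff_mul]
  by_cases h : wt p m = k + k' ∧ fl m = s + s'
  · rw [if_pos h]
    refine Finset.sum_congr rfl fun x hx => ?_
    rw [Finset.mem_antidiagonal] at hx
    by_cases hx2 : coeff x.2 g = 0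
    · rw [hx2, mul_zero, mul_zero]
    · obtain ⟨h1, h2⟩ := mem_grR.1 hg _ hx2
      rw [← hx, wt_add, fl_add] at h
      rw [coeff_comp, if_pos ⟨by linarith [h.1], by linarith [h.2]⟩]
  · rw [if_neg h]
    symm
    refine Finset.sum_eq_zero fun x hx => ?_
    rw [Finset.mem_antidiagonal] at hx
    by_cases hx2 : coeff x.2 g = 0
    · rw [hx2, mul_zero]
    · obtain ⟨h1, h2⟩ := mem_grR.1 hg _ hx2
      rw [coeff_comp]
      by_cases h3 : wt p x.1 = k ∧ fl x.1 = s
      · exfalso
        apply h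
        rw [← hx, wt_add, fl_add]
        exact ⟨by linarith [h3.1], by linarith [h3.2]⟩
      · rw [if_neg h3, zero_mul]

/-- the variables as a sequence -/
noncomputable def xx (p n : ℕ) (a : ℕ) : RR p n := if h : a < n + 1 then X ⟨a, h⟩ else 0

theorem xx_of_lt {a : ℕ} (h : a < n + 1) : xx p n a = X ⟨a, h⟩ := dif_pos h

variable {N N' : Type} [AddCommGroup N] [Module (RR p n) N] [AddCommGroup N'] [Module (RR p n) N']

theorem xGr {gr : ℤ → ℤ → AddSubgroup N} (h : IsGr p n gr) :
    XGr (xx p n) (sV p) (n + 1) gr := by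
  intro j hj k s y hy
  rw [xx_of_lt hj]
  exact h ⟨j, hj⟩ k s y hy

theorem XGr.mono {x : ℕ → RR p n} {w : ℕ → ℤ} {gr : ℤ → ℤ → AddSubgroup N} {j m : ℕ}
    (h : XGr x w m gr) (hj : j ≤ m) : XGr x w j gr := fun a ha => h a (lt_of_lt_of_le ha hj)

theorem smul_mem_aux [NeZero p] {gr : ℤ → ℤ → AddSubgroup N} (h : IsGr p n gr)
    (m : Fin (n + 1) →₀ ℕ) : ∀ (c : ZMod p) (k s : ℤ) (y : N), y ∈ gr k s →
      (monomial m c : RR p n) • y ∈ gr (k + wt p m) (s + fl m) := by
  have hC : ∀ (c : ZMod p) (k s : ℤ) (y : N), y ∈ gr k s → (C c : RR p n) • y ∈ gr k s := by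
    intro c k s y hy
    have : (C c : RR p n) • y = c.val • y := by
      rw [← Nat.cast_smul_eq_nsmul (RR p n) c.val y]
      rw [show ((c.val : ℕ) : RR p n) = C ((c.val : ℕ) : ZMod p) by rw [map_natCast],
        ZMod.natCast_val, ZMod.cast_id]
    rw [this]
    exact nsmul_mem hy _
  have hX : ∀ (a : Fin (n + 1)) (t : ℕ) (k s : ℤ) (y : N), y ∈ gr k s →
      (monomial (Finsupp.single a t) 1 : RR p n) • y ∈
        gr (k + wt p (Finsupp.single a t)) (s + fl (Finsupp.single a t)) := by
    intro a t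
    induction t with
    | zero =>
      intro k s y hy
      rw [Finsupp.single_zero, wt_zero, fl_zero, add_zero, add_zero]
      exact hC 1 k s y hy
    | succ t ih =>
      intro k s y hy
      have e1 : (Finsupp.single a (t + 1) : Fin (n + 1) →₀ ℕ)
          = Finsupp.single a 1 + Finsupp.single a t := by
        rw [← Finsupp.single_add, add_comm 1 t]
      rw [e1, wt_add, fl_add, wt_single, fl_single]
      have e2 : (monomial (Finsupp.single a 1 + Finsupp.single a t) 1 : RR p n)
          = X a * monomial (Finsupp.single a t) 1 := by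
        rw [X, monomial_mul, one_mul]
      rw [e2, mul_smul]
      have := h a _ _ _ (ih k s y hy)
      rwa [show k + wt p (Finsupp.single a t) + sV p a = k + (sV p a + wt p (Finsupp.single a t))
        by ring, show s + fl (Finsupp.single a t) + 1 = s + (1 + fl (Finsupp.single a t)) by ring]
        at this
  induction m using Finsupp.induction_linear with
  | zero =>
    intro c k s y hy
    rw [wt_zero, fl_zero, add_zero, add_zero]
    exact hC c k s y hy
  | add m1 m2 h1 h2 =>
    intro c k s y hy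
    have e2 : (monomial (m1 + m2) c : RR p n) = monomial m2 1 * monomial m1 c := by
      rw [monomial_mul, one_mul, add_comm m2 m1]
    rw [e2, mul_smul, wt_add, fl_add, ← add_assoc, ← add_assoc]
    exact h2 1 _ _ _ (h1 c k s y hy)
  | single a t =>
    intro c k s y hy
    have e2 : (monomial (Finsupp.single a t) c : RR p n)
        = C c * monomial (Finsupp.single a t) 1 := by
      rw [C_mul_monomial, mul_one]
    rw [e2, mul_smul]
    exact hC c _ _ _ (hX a t k s y hy)

theorem smul_mem [NeZero p] {gr : ℤ → ℤ → AddSubgroup N} (h : IsGr p n gr) {k s k' s' : ℤ}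
    {c : RR p n} {y : N} (hc : c ∈ grR p n k s) (hy : y ∈ gr k' s') :
    c • y ∈ gr (k + k') (s + s') := by
  rw [c.as_sum, Finset.sum_smul]
  refine sum_mem fun m hm => ?_
  obtain ⟨h1, h2⟩ := mem_grR.1 hc m (mem_support_iff.1 hm)
  have := smul_mem_aux h m (coeff m c) k' s' y hy
  rwa [h1, h2, add_comm k', add_comm s'] at this

theorem single_mem {r : ℕ} (e a : Fin r → ℤ) (i : Fin r) :
    (Pi.single i 1 : Fin r → RR p n) ∈ grFree p n e a (e i) (a i) := by
  intro j
  by_cases h : j = i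
  · subst h
    rw [Pi.single_eq_same, sub_self, sub_self, ← C_1]
    exact grR_C 1
  · rw [Pi.single_eq_of_ne h]
    exact zero_mem _

theorem lin_apply {r : ℕ} (f : (Fin r → RR p n) →ₗ[RR p n] N) (c : Fin r → RR p n) :
    f c = ∑ i, c i • f (Pi.single i 1) := by
  conv_lhs => rw [show c = ∑ i, c i • (Pi.single i 1 : Fin r → RR p n) by
    funext j
    rw [Finset.sum_apply, Finset.sum_eq_single j]
    · rw [Pi.smul_apply, Pi.single_eq_same, smul_eq_mul, mul_one]
    · intro i _ hij
      rw [Pi.smul_apply, Pi.single_eq_of_ne (Ne.symm hij), smul_zero]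
    · intro h
      exact absurd (Finset.mem_univ j) h]
  rw [map_sum]
  exact Finset.sum_congr rfl fun i _ => by rw [map_smul]

/-- graded submodules of free modules are finitely generated -/
theorem fg_of_le [Fact p.Prime] {r : ℕ} (e a : Fin r → ℤ)
    (gr' : ℤ → ℤ → AddSubgroup (Fin r → RR p n)) (hgr' : IsGr p n gr')
    (hle : ∀ k s, gr' k s ≤ grFree p n e a k s) : FG (p := p) (n := n) gr' := by
  classical
  set T : Set (Fin r → RR p n) := ⋃ (k : ℤ) (s : ℤ), (gr' k s : Set (Fin r → RR p n)) with hT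
  have hfg : (Submodule.span (RR p n) T).FG := IsNoetherian.noetherian _
  rw [Submodule.fg_span_iff_fg_span_finset_subset] at hfg
  obtain ⟨t, htT, htspan⟩ := hfg
  have hch : ∀ y : t, ∃ q : ℤ × ℤ, (y : Fin r → RR p n) ∈ gr' q.1 q.2 := by
    intro y
    have := htT y.2
    simp only [hT, Set.mem_iUnion] at this
    obtain ⟨k, s, h⟩ := this
    exact ⟨(k, s), h⟩
  choose q hq using hch
  let φ := t.equivFin
  let yy : Fin t.card → (Fin r → RR p n) := fun i => (φ.symm i : Fin r → RR p n)
  refine ⟨t.card, fun i => (q (φ.symm i)).1, fun i => (q (φ.symm i)).2,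
    Fintype.linearCombination (RR p n) yy, ?_, ?_⟩
  · intro k s c hc
    rw [Fintype.linearCombination_apply]
    refine sum_mem fun i _ => ?_
    have := smul_mem hgr' (hc i) (hq (φ.symm i))
    rwa [sub_add_cancel, sub_add_cancel] at this
  · intro k s y hy
    have hyT : y ∈ Submodule.span (RR p n) T := by
      refine Submodule.subset_span ?_
      simp only [hT, Set.mem_iUnion]
      exact ⟨k, s, hy⟩
    have hrange : Set.range yy = (t : Set (Fin r → RR p n)) := by
      ext z
      constructor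
      · rintro ⟨i, rfl⟩
        exact (φ.symm i).2
      · intro hz
        exact ⟨φ ⟨z, hz⟩, by simp [yy]⟩
    rw [htspan, ← hrange] at hyT
    obtain ⟨c, hc⟩ := (Submodule.mem_span_range_iff_exists_fun (RR p n)).1 hyT
    refine ⟨fun i => comp (k - (q (φ.symm i)).1) (s - (q (φ.symm i)).2) (c i), ?_, ?_⟩
    · intro i
      exact comp_mem _ _ _
    · rw [Fintype.linearCombination_apply]
      funext j
      have h1 : comp (k - e j) (s - a j) (y j) = y j := comp_of_mem (hle k s hy j)
      rw [← h1, ← hc, Finset.sum_apply, Finset.sum_apply, comp_sum]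
      refine Finset.sum_congr rfl fun i _ => ?_
      rw [Pi.smul_apply, Pi.smul_apply, smul_eq_mul, smul_eq_mul]
      have h2 := hle _ _ (hq (φ.symm i)) j
      have h3 := comp_mul (k - (q (φ.symm i)).1) (s - (q (φ.symm i)).2) (c i) h2
      rw [← h3]
      congr 1
      · ring
      · ring

/-! ### Decomposable elements of free modules -/

theorem KB_add {x : ℕ → RR p n} {w : ℕ → ℤ} {gr : ℤ → ℤ → AddSubgroup N} {k s : ℤ} (j : ℕ)
    {y : N} (hy : KB x w gr k s j y) (hx : XGr x w j gr) : y ∈ gr k s := by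
  induction j generalizing y with
  | zero =>
    have : y = 0 := hy
    rw [this]
    exact zero_mem _
  | succ j ih =>
    obtain ⟨u, hu, h⟩ := hy
    have h1 := ih h (XGr.mono hx (Nat.le_succ j))
    have h2 := hx j (Nat.lt_succ_self j) _ _ u hu
    rw [sub_add_cancel, sub_add_cancel] at h2
    have := add_mem h1 h2
    rwa [sub_add_cancel] at this

theorem KB_map {x : ℕ → RR p n} {w : ℕ → ℤ} {gr : ℤ → ℤ → AddSubgroup N}
    {gr' : ℤ → ℤ → AddSubgroup N'} (f : N →ₗ[RR p n] N')
    (hf : ∀ k s y, y ∈ gr k s → f y ∈ gr' k s) {k s : ℤ} (j : ℕ)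
    {y : N} (hy : KB x w gr k s j y) : KB x w gr' k s j (f y) := by
  induction j generalizing y with
  | zero =>
    have : y = 0 := hy
    rw [this]
    exact map_zero f
  | succ j ih =>
    obtain ⟨u, hu, h⟩ := hy
    refine ⟨f u, hf _ _ _ hu, ?_⟩
    have := ih h
    rwa [map_sub, map_smul] at this

theorem KB_lift {x : ℕ → RR p n} {w : ℕ → ℤ} {gr : ℤ → ℤ → AddSubgroup N}
    {gr' : ℤ → ℤ → AddSubgroup N'} (f : N →ₗ[RR p n] N')
    (hs : ∀ k s y, y ∈ gr' k s → ∃ z ∈ gr k s, f z = y) {k s : ℤ} (j : ℕ)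
    {y : N'} (hy : KB x w gr' k s j y) : ∃ z, KB x w gr k s j z ∧ f z = y := by
  induction j generalizing y with
  | zero =>
    have : y = 0 := hy
    rw [this]
    exact ⟨0, rfl, map_zero f⟩
  | succ j ih =>
    obtain ⟨u, hu, h⟩ := hy
    obtain ⟨z, hz, hzy⟩ := ih h
    obtain ⟨v, hv, rfl⟩ := hs _ _ _ hu
    refine ⟨z + x j • v, ⟨v, hv, ?_⟩, ?_⟩
    · rwa [add_sub_cancel_right]
    · rw [map_add, map_smul, hzy, sub_add_cancel]

/-- decomposable elements of a free module -/
theorem KB_free {r : ℕ} {e a : Fin r → ℤ} {k s : ℤ} (j : ℕ) (hj : j ≤ n + 1)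
    {y : Fin r → RR p n} :
    KB (xx p n) (sV p) (grFree p n e a) k s j y ↔ y ∈ grFree p n e a k s ∧
      ∀ i m, coeff m (y i) ≠ 0 → ∃ l : Fin (n + 1), (l : ℕ) < j ∧ m l ≠ 0 := by
  induction j generalizing y with
  | zero =>
    constructor
    · intro h
      have : y = 0 := h
      rw [this]
      exact ⟨zero_mem _, fun i m hm => absurd (coeff_zero m) hm⟩
    · rintro ⟨-, h⟩
      change y = 0
      funext i
      ext m
      rw [Pi.zero_apply, coeff_zero]
      by_contra hm
      obtain ⟨l, hl, _⟩ := h i m hm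
      omega
  | succ j ih =>
    have hjn : j < n + 1 := hj
    constructor
    · intro hy
      refine ⟨KB_add (j + 1) hy (XGr.mono (xGr (isGr_free e a)) hj), ?_⟩
      obtain ⟨u, hu, h⟩ := hy
      have h1 := (ih (le_of_lt hjn)).1 h
      intro i m hm
      by_cases h2 : coeff m ((y - xx p n j • u) i) = 0
      · rw [Pi.sub_apply, Pi.smul_apply, smul_eq_mul, coeff_sub, sub_eq_zero] at h2
        rw [h2, xx_of_lt hjn, coeff_X_mul'] at hm
        by_cases h3 : (⟨j, hjn⟩ : Fin (n + 1)) ∈ m.support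
        · exact ⟨⟨j, hjn⟩, Nat.lt_succ_self j, Finsupp.mem_support_iff.1 h3⟩
        · rw [if_neg h3] at hm
          exact absurd rfl hm
      · obtain ⟨l, hl, hl'⟩ := h1.2 i m h2
        exact ⟨l, by omega, hl'⟩
    · rintro ⟨hy, h⟩
      set b : Fin (n + 1) := ⟨j, hjn⟩ with hb
      refine ⟨fun i => divMonomial (y i) (Finsupp.single b 1), ?_, ?_⟩
      · intro i
        rw [mem_grR]
        intro m hm
        rw [coeff_divMonomial] at hm
        obtain ⟨h1, h2⟩ := mem_grR.1 (hy i) _ hm
        rw [wt_add, wt_single] at h1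
        rw [fl_add, fl_single] at h2
        have h3 : sV p (b : ℕ) = sV p j := rfl
        rw [h3] at h1
        exact ⟨by linarith, by linarith⟩
      · have hfun : y - xx p n j • (fun i => divMonomial (y i) (Finsupp.single b 1))
            = fun i => modMonomial (y i) (Finsupp.single b 1) := by
          funext i
          rw [Pi.sub_apply, Pi.smul_apply, smul_eq_mul, xx_of_lt hjn, sub_eq_iff_eq_add']
          exact (divMonomial_add_modMonomial_single (y i) b).symm
        rw [hfun]
        refine (ih (le_of_lt hjn)).2 ⟨?_, ?_⟩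
        · intro i
          rw [mem_grR]
          intro m hm
          by_cases hle : Finsupp.single b 1 ≤ m
          · rw [coeff_modMonomial_of_le _ hle] at hm
            exact absurd rfl hm
          · rw [coeff_modMonomial_of_not_le _ hle] at hm
            exact mem_grR.1 (hy i) _ hm
        · intro i m hm
          by_cases hle : Finsupp.single b 1 ≤ m
          · rw [coeff_modMonomial_of_le _ hle] at hm
            exact absurd rfl hm
          · rw [coeff_modMonomial_of_not_le _ hle] at hm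
            obtain ⟨l, hl, hl'⟩ := h i m hm
            refine ⟨l, ?_, hl'⟩
            rcases Nat.lt_succ_iff_lt_or_eq.1 hl with h1 | h1
            · exact h1
            · exfalso
              apply hle
              have hlb : l = b := Fin.ext h1
              rw [Finsupp.single_le_iff, ← hlb]
              omega

theorem KB_top {r : ℕ} {e a : Fin r → ℤ} {k s : ℤ} {y : Fin r → RR p n} :
    KB (xx p n) (sV p) (grFree p n e a) k s (n + 1) y ↔ y ∈ grFree p n e a k s ∧
      ∀ i, coeff 0 (y i) = 0 := by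
  rw [KB_free (n + 1) le_rfl]
  refine and_congr_right fun _ => ⟨fun h i => ?_, fun h i m hm => ?_⟩
  · by_contra h0
    obtain ⟨l, _, hl⟩ := h i 0 h0
    exact hl rfl
  · by_contra h1
    apply hm
    have : m = 0 := by
      ext l
      by_contra hl
      exact h1 ⟨l, l.2, hl⟩
    rw [this]
    exact h i

/-- the Koszul homology of a free module -/
theorem KEx_free {r : ℕ} (e a : Fin r → ℤ) (j : ℕ) (hj : j ≤ n + 1) {i k : ℤ} (hi : 1 ≤ i) :
    KEx (xx p n) (sV p) (grFree p n e a) j i k := by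
  induction j generalizing i k with
  | zero =>
    refine KEx.of_zero _ fun s y hy => ?_
    exact KG_large 0 (by exact_mod_cast hi) hy
  | succ j ih =>
    refine KEx.succ _ (XGr.mono (xGr (isGr_free e a)) hj) hi
      (fun i k hi => ih (le_of_lt hj) hi) ?_
    intro k s y hy hB
    rw [KB_free j (le_of_lt hj)] at hB ⊢
    refine ⟨hy, fun i m hm => ?_⟩
    have hjn : j < n + 1 := hj
    obtain ⟨l, hl, hl'⟩ := hB.2 i (Finsupp.single (⟨j, hjn⟩ : Fin (n + 1)) 1 + m) (by
      rw [Pi.smul_apply, smul_eq_mul, xx_of_lt hjn, coeff_X_mul]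
      exact hm)
    refine ⟨l, hl, ?_⟩
    rw [Finsupp.add_apply, Finsupp.single_eq_of_ne, zero_add] at hl'
    · exact hl'
    · intro h
      rw [h] at hl
      exact absurd hl (lt_irrefl _)

/-! ### Minimal generators -/

theorem exists_min_aux [Fact p.Prime] {gr : ℤ → ℤ → AddSubgroup N} (hgr : IsGr p n gr) (r : ℕ)
    (e a : Fin (r + 1) → ℤ) (f : (Fin (r + 1) → RR p n) →ₗ[RR p n] N)
    (hf : IsSurj (grFree p n e a) gr f) {k s : ℤ} {x : Fin (r + 1) → RR p n}
    (hx : x ∈ kerGr (grFree p n e a) f k s) {i : Fin (r + 1)} (hc : coeff 0 (x i) ≠ 0) :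
    ∃ (e' a' : Fin r → ℤ) (f' : (Fin r → RR p n) →ₗ[RR p n] N),
      IsSurj (grFree p n e' a') gr f' := by
  obtain ⟨h1, h2⟩ := mem_grR.1 (hx.1 i) 0 hc
  rw [wt_zero] at h1
  rw [fl_zero] at h2
  have hC : x i = C (coeff 0 (x i)) := by
    ext m
    rw [coeff_C]
    by_cases h : 0 = m
    · rw [if_pos h, h]
    · rw [if_neg h]
      by_contra hm
      obtain ⟨_, h4⟩ := mem_grR.1 (hx.1 i) m hm
      exact h (eq_zero_of_fl (by rw [h4, ← h2])).symm
  set c := coeff 0 (x i) with hcdef
  have hfx : f x = 0 := hx.2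
  have hval : ∀ g : Fin (r + 1) → RR p n, g i = 0 →
      Fintype.linearCombination (RR p n) (fun j => f (Pi.single (i.succAbove j) 1))
        (fun j => g (i.succAbove j)) = f g := by
    intro g hg
    rw [Fintype.linearCombination_apply, lin_apply f g, Fin.sum_univ_succAbove _ i, hg, zero_smul,
      zero_add]
  refine ⟨fun j => e (i.succAbove j), fun j => a (i.succAbove j),
    Fintype.linearCombination (RR p n) (fun j => f (Pi.single (i.succAbove j) 1)), ?_, ?_⟩
  · intro k' s' g hg
    rw [Fintype.linearCombination_apply]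
    refine sum_mem fun j _ => ?_
    have := smul_mem hgr (hg j) (hf.map _ _ _ (single_mem e a (i.succAbove j)))
    rwa [sub_add_cancel, sub_add_cancel] at this
  · intro k' s' y hy
    obtain ⟨g, hg, hgy⟩ := hf.surj k' s' y hy
    have hg2 : (g - (g i * C c⁻¹) • x) i = 0 := by
      rw [Pi.sub_apply, Pi.smul_apply, smul_eq_mul, hC, mul_assoc, ← C_mul, inv_mul_cancel₀ hc,
        C_1, mul_one, sub_self]
    have hg3 : g - (g i * C c⁻¹) • x ∈ grFree p n e a k' s' := by
      refine sub_mem hg ?_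
      have h5 : g i * C c⁻¹ ∈ grR p n (k' - e i + 0) (s' - a i + 0) := grR_mul (hg i) (grR_C _)
      have h6 := smul_mem (isGr_free e a) h5 hx.1
      rwa [show k' - e i + 0 + k = k' by linarith, show s' - a i + 0 + s = s' by linarith] at h6
    refine ⟨fun j => (g - (g i * C c⁻¹) • x) (i.succAbove j), fun j => hg3 _, ?_⟩
    rw [hval _ hg2, map_sub, map_smul, hfx, smul_zero, sub_zero, hgy]

/-- minimal generators -/
theorem exists_min [Fact p.Prime] {gr : ℤ → ℤ → AddSubgroup N} (hgr : IsGr p n gr)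
    (h : FG (p := p) (n := n) gr) :
    ∃ (r : ℕ) (e a : Fin r → ℤ) (f : (Fin r → RR p n) →ₗ[RR p n] N),
      IsSurj (grFree p n e a) gr f ∧
      ∀ k s, ∀ x ∈ kerGr (grFree p n e a) f k s, ∀ i, coeff 0 (x i) = 0 := by
  classical
  have key : ∀ r, (∃ (e a : Fin r → ℤ) (f : (Fin r → RR p n) →ₗ[RR p n] N),
      IsSurj (grFree p n e a) gr f) → (∀ r' < r, ¬ ∃ (e a : Fin r' → ℤ)
      (f : (Fin r' → RR p n) →ₗ[RR p n] N), IsSurj (grFree p n e a) gr f) →
      ∃ (e a : Fin r → ℤ) (f : (Fin r → RR p n) →ₗ[RR p n] N),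
      IsSurj (grFree p n e a) gr f ∧
      ∀ k s, ∀ x ∈ kerGr (grFree p n e a) f k s, ∀ i, coeff 0 (x i) = 0 := by
    intro r
    cases r with
    | zero =>
      rintro ⟨e, a, f, hf⟩ _
      exact ⟨e, a, f, hf, fun k s x _ i => i.elim0⟩
    | succ r =>
      rintro ⟨e, a, f, hf⟩ hmin
      refine ⟨e, a, f, hf, fun k s x hx i => ?_⟩
      by_contra hc
      exact hmin r (Nat.lt_succ_self r) (exists_min_aux hgr r e a f hf hx hc)
  obtain ⟨e, a, f, hf⟩ := key (Nat.find h) (Nat.find_spec h) (fun r' hr' => Nat.find_min h hr')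
  exact ⟨_, e, a, f, hf⟩

/-- the generator degrees are degrees of indecomposable elements -/
theorem not_KEx_zero [Fact p.Prime] {gr : ℤ → ℤ → AddSubgroup N} {r : ℕ}
    {e a : Fin r → ℤ} {f : (Fin r → RR p n) →ₗ[RR p n] N} (hf : IsSurj (grFree p n e a) gr f)
    (hmin : ∀ k s, ∀ x ∈ kerGr (grFree p n e a) f k s, ∀ i, coeff 0 (x i) = 0) (i : Fin r) :
    ¬ KEx (xx p n) (sV p) gr (n + 1) 0 (e i) := by
  intro h
  rw [KEx_zero_iff] at h
  have h1 := h (a i) _ (hf.map _ _ _ (single_mem e a i))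
  obtain ⟨z, hz, hzf⟩ := KB_lift f hf.surj (n + 1) h1
  rw [KB_top] at hz
  have h2 := hmin (e i) (a i) (Pi.single i 1 - z)
    (AddSubgroup.mem_inf.2 ⟨sub_mem (single_mem e a i) hz.1, by
      change f (Pi.single i 1 - z) = 0
      rw [map_sub, hzf, sub_self]⟩) i
  rw [Pi.sub_apply, Pi.single_eq_same, coeff_sub, hz.2 i, sub_zero, coeff_zero_one] at h2
  exact one_ne_zero h2

/-! ### The main theorem -/

theorem QQ_of_KEx [Fact p.Prime] (d : ℤ) : ∀ (ℓ : ℕ) (N : Type) [AddCommGroup N]
    [Module (RR p n) N] (gr : ℤ → ℤ → AddSubgroup N), IsGr p n gr → FG (p := p) (n := n) gr →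
    (∀ i k : ℤ, (k < d ∨ d + WW p n < k) → KEx (xx p n) (sV p) gr (n + 1) i k) →
    (∀ i k : ℤ, (ℓ : ℤ) ≤ i → KEx (xx p n) (sV p) gr (n + 1) i k) → QQ p n d ℓ N gr := by
  intro ℓ
  induction ℓ with
  | zero =>
    intro N _ _ gr hgr hfg _ h2
    rw [QQ_zero]
    obtain ⟨r, e, a, f, hf, hmin⟩ := exists_min hgr hfg
    cases r with
    | zero =>
      intro k s
      rw [eq_bot_iff]
      intro y hy
      obtain ⟨x, _, rfl⟩ := hf.surj k s y hy
      rw [AddSubgroup.mem_bot, Subsingleton.elim x 0, map_zero]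
    | succ r => exact absurd (h2 0 (e 0) le_rfl) (not_KEx_zero hf hmin 0)
  | succ ℓ ih =>
    intro N _ _ gr hgr hfg h1 h2
    rw [QQ_succ]
    obtain ⟨r, e, a, f, hf, hmin⟩ := exists_min hgr hfg
    refine ⟨r, e, a, f, ?_, hf, ?_⟩
    · intro j
      by_contra hj
      refine not_KEx_zero hf hmin j (h1 0 (e j) ?_)
      by_contra h
      push Not at h
      exact hj h
    · have hF : ∀ (i k s : ℤ), ∀ y ∈ KG (RR p n) (sV p) (kerGr (grFree p n e a) f) (n + 1) i k s,
          KD (xx p n) (Fin r → RR p n) (n + 1) y = 0 →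
          ∃ z ∈ KG (RR p n) (sV p) (grFree p n e a) (n + 1) (i + 1) k s,
            KD (xx p n) (Fin r → RR p n) (n + 1) z = y := by
        intro i k s y hy hd
        rcases lt_trichotomy i 0 with h | h | h
        · exact ⟨0, zero_mem _, by rw [KG_neg (n + 1) h hy, map_zero]⟩
        · subst h
          obtain ⟨u, hu, rfl⟩ := exists_Kι (n + 1) hy
          have h3 := (KB_iff (xx p n) (n + 1)).1 (KB_top.2 ⟨hu.1, hmin k s u hu⟩)
          rwa [zero_add]
        · exact KEx_free e a (n + 1) le_rfl (by omega) s y ((mem_KG_ker (n + 1)).1 hy).1 hd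
      refine ih _ _ (isGr_ker (isGr_free e a) f) (fg_of_le e a _
        (isGr_ker (isGr_free e a) f) fun k s => inf_le_left) ?_ ?_
      · intro i k hk
        exact KEx.ker (xx p n) (xGr (isGr_free e a)) hf.map hf.surj (hF i k) (h1 (i + 1) k hk)
      · intro i k hi
        exact KEx.ker (xx p n) (xGr (isGr_free e a)) hf.map hf.surj (hF i k)
          (h2 (i + 1) k (by push_cast; omega))

/-! ### Koszul homology vanishes in large degrees -/

theorem exists_bound [Fact p.Prime] : ∀ (i : ℕ) (N : Type) [AddCommGroup N]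
    [Module (RR p n) N] (gr : ℤ → ℤ → AddSubgroup N), IsGr p n gr → FG (p := p) (n := n) gr →
    ∃ d₀ : ℤ, ∀ i' : ℤ, i' ≤ i → ∀ k, d₀ < k → KEx (xx p n) (sV p) gr (n + 1) i' k := by
  intro i
  induction i with
  | zero =>
    intro N _ _ gr hgr ⟨r, e, a, f, hf⟩
    obtain ⟨d₀, hd₀⟩ : ∃ d₀ : ℤ, ∀ j, e j ≤ d₀ := by
      obtain ⟨d₀, hd₀⟩ := (Set.finite_range e).bddAbove
      exact ⟨d₀, fun j => hd₀ ⟨j, rfl⟩⟩
    refine ⟨d₀, fun i' hi' k hk => ?_⟩
    rcases lt_or_eq_of_le hi' with h | h
    · exact KEx.of_zero _ fun s y hy => KG_neg (n + 1) (by exact_mod_cast h) hy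
    · have h' : i' = 0 := by rw [h]; rfl
      subst h'
      rw [KEx_zero_iff]
      intro s y hy
      obtain ⟨g, hg, rfl⟩ := hf.surj k s y hy
      refine KB_map f hf.map (n + 1) (KB_top.2 ⟨hg, fun j => ?_⟩)
      by_contra hc
      obtain ⟨h1, _⟩ := mem_grR.1 (hg j) 0 hc
      rw [wt_zero] at h1
      have := hd₀ j
      omega
  | succ i ih =>
    intro N _ _ gr hgr hfg
    obtain ⟨d₁, hd₁⟩ := ih N gr hgr hfg
    obtain ⟨r, e, a, f, hf⟩ := hfg
    obtain ⟨d₂, hd₂⟩ := ih _ _ (isGr_ker (isGr_free e a) f) (fg_of_le e a _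
        (isGr_ker (isGr_free e a) f) fun k s => inf_le_left)
    refine ⟨max d₁ d₂, fun i' hi' k hk => ?_⟩
    rcases lt_or_eq_of_le hi' with h | h
    · exact hd₁ i' (by push_cast at h; omega) k (lt_of_le_of_lt (le_max_left _ _) hk)
    · have h' : i' = (i : ℤ) + 1 := by rw [h]; push_cast; ring
      subst h'
      exact KEx.quot (xx p n) (xGr (isGr_free e a)) hf.map hf.surj
        (KEx_free e a (n + 1) le_rfl (by omega)) (hd₂ i le_rfl k
          (lt_of_le_of_lt (le_max_right _ _) hk))

theorem isGr_trunc (hp : 1 ≤ p) {gr : ℤ → ℤ → AddSubgroup N} (hgr : IsGr p n gr) (d : ℤ) :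
    IsGr p n (trunc d gr) := by
  intro a k s y hy
  unfold trunc at hy ⊢
  by_cases h : d ≤ k
  · rw [if_pos h] at hy
    rw [if_pos (by have := sV_nonneg hp (a : ℕ); omega)]
    exact hgr a k s y hy
  · rw [if_neg h, AddSubgroup.mem_bot] at hy
    rw [hy, smul_zero]
    exact zero_mem _

theorem fg_trunc [Fact p.Prime] {gr : ℤ → ℤ → AddSubgroup N}
    (hfg : FG (p := p) (n := n) gr) (d : ℤ) : FG (p := p) (n := n) (trunc d gr) := by
  have hp : 1 ≤ p := (Fact.out : p.Prime).one_lt.le
  obtain ⟨r, e, a, f, hf⟩ := hfg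
  obtain ⟨r', e', a', g, hg⟩ := fg_of_le e a (trunc d (grFree p n e a))
    (isGr_trunc hp (isGr_free e a) d) (fun k s => by
      unfold trunc
      by_cases h : d ≤ k
      · rw [if_pos h]
      · rw [if_neg h]; exact bot_le)
  refine ⟨r', e', a', f.comp g, ?_, ?_⟩
  · intro k s x hx
    have h1 := hg.map k s x hx
    unfold trunc at h1 ⊢
    by_cases h : d ≤ k
    · rw [if_pos h] at h1 ⊢
      exact hf.map k s _ h1
    · rw [if_neg h, AddSubgroup.mem_bot] at h1
      rw [LinearMap.comp_apply, h1, map_zero]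
      exact zero_mem _
  · intro k s y hy
    have h2 : ∃ x ∈ trunc d (grFree p n e a) k s, f x = y := by
      unfold trunc at hy ⊢
      by_cases h : d ≤ k
      · rw [if_pos h] at hy ⊢
        exact hf.surj k s y hy
      · rw [if_neg h, AddSubgroup.mem_bot] at hy
        exact ⟨0, zero_mem _, by rw [hy, map_zero]⟩
    obtain ⟨x, hx, rfl⟩ := h2
    obtain ⟨z, hz, rfl⟩ := hg.surj k s x hx
    exact ⟨z, hz, rfl⟩

theorem WW_eq : WW p n = ∑ a ∈ Finset.range (n + 1), sV p a :=
  (Finset.sum_range (fun a => sV p a)).symm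

theorem specRes (p n : ℕ) [Fact p.Prime] : SpecRes p n := by
  have hp : 1 ≤ p := (Fact.out : p.Prime).one_lt.le
  have hw : ∀ a, 0 ≤ sV p a := sV_nonneg hp
  constructor
  · intro N _ _ gr hgr hfg
    obtain ⟨d₀, hd₀⟩ := exists_bound (n + 1) N gr hgr hfg
    refine ⟨d₀, fun d hd => ⟨n + 2, QQ_of_KEx d (n + 2) N _ (isGr_trunc hp hgr d)
      (fg_trunc hfg d) ?_ ?_⟩⟩
    · intro i k hk
      rcases hk with hk | hk
      · refine KEx.of_zero _ fun s y hy => KG_bot hw (n + 1) (fun k' _ hk' s => ?_) hy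
        unfold trunc
        rw [if_neg (by omega)]
      · rcases le_or_gt i ((n + 1 : ℕ) : ℤ) with h | h
        · refine KEx.congr _ hw (n + 1) (fun k' hk' _ s => ?_) (hd₀ i h k ?_)
          · unfold trunc
            rw [← WW_eq] at hk'
            rw [if_pos (by omega)]
          · have : 0 ≤ WW p n := Finset.sum_nonneg fun a _ => hw a
            omega
        · exact KEx.of_zero _ fun s y hy => KG_large (n + 1) h hy
    · intro i k hi
      exact KEx.of_zero _ fun s y hy => KG_large (n + 1) (by push_cast at hi ⊢; omega) hy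
  · intro N _ _ gr m hgr hfg hm
    refine ⟨n + 2, QQ_of_KEx m (n + 2) N _ hgr hfg ?_ ?_⟩
    · intro i k hk
      refine KEx.of_zero _ fun s y hy => KG_bot hw (n + 1) (fun k' h1 h2 s => hm k' s ?_) hy
      rw [← WW_eq] at h1
      rcases hk with hk | hk <;> omega
    · intro i k hi
      exact KEx.of_zero _ fun s y hy => KG_large (n + 1) (by push_cast at hi ⊢; omega) hy

end Ring

end Vale.Agent.P221.H136
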